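import Vale.Agent.P047.Gadget

/-!
Moments of the coordinate sum and a low-degree approximation to the sign.
-/

namespace Vale.Agent.P047

open Finset Polynomial

lemma isum_cons {n : ℕ} (b : Bool) (y : Fin n → Bool) :
    isum (Fin.cons b y : Fin (n + 1) → Bool) = (if b then 1 else -1) + isum y := by
  simp [isum, Fin.sum_univ_succ]

lemma wsum_cons {n : ℕ} (b : Bool) (y : Fin n → Bool) :
    wsum (Fin.cons b y : Fin (n + 1) → Bool) = sgn b + wsum y := by
  simp [wsum, Fin.sum_univ_succ]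

lemma moment_two : ∀ n : ℕ, ∑ x : Fin n → Bool, wsum x ^ 2 = (n : ℝ) * 2 ^ n
  | 0 => by simp [wsum]
  | n + 1 => by
    rw [sum_cons, Fintype.sum_bool, ← sum_add_distrib]
    have : ∀ y : Fin n → Bool, wsum (Fin.cons true y : Fin (n + 1) → Bool) ^ 2
        + wsum (Fin.cons false y : Fin (n + 1) → Bool) ^ 2 = 2 * wsum y ^ 2 + 2 := by
      intro y; simp [wsum_cons, sgn]; ring
    simp_rw [this, sum_add_distrib, ← mul_sum, moment_two n]
    simp [pow_succ]; ring

lemma moment_four : ∀ n : ℕ, ∑ x : Fin n → Bool, wsum x ^ 4 ≤ 3 * (n : ℝ) ^ 2 * 2 ^ n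
  | 0 => by simp [wsum]
  | n + 1 => by
    rw [sum_cons, Fintype.sum_bool, ← sum_add_distrib]
    have : ∀ y : Fin n → Bool, wsum (Fin.cons true y : Fin (n + 1) → Bool) ^ 4
        + wsum (Fin.cons false y : Fin (n + 1) → Bool) ^ 4
          = 2 * wsum y ^ 4 + (12 * wsum y ^ 2 + 2) := by
      intro y; simp [wsum_cons, sgn]; ring
    simp_rw [this, sum_add_distrib, ← mul_sum, moment_two n]
    have := moment_four n
    rw [pow_succ (2 : ℝ) n]
    simp only [sum_const, card_univ, Fintype.card_fun, Fintype.card_bool, Fintype.card_fin,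
      nsmul_eq_mul]
    push_cast
    nlinarith [pow_pos (two_pos : (0 : ℝ) < 2) n]

lemma sum_split {n₁ n₂ : ℕ} (F : (Fin n₁ → Bool) → (Fin n₂ → Bool) → ℝ) :
    ∑ z : Fin (n₁ + n₂) → Bool, F (z ∘ Fin.castAdd n₂) (z ∘ Fin.natAdd n₁)
      = ∑ u : Fin n₁ → Bool, ∑ v : Fin n₂ → Bool, F u v := by
  rw [← Fintype.sum_prod_type']
  refine sum_nbij' (fun z => (z ∘ Fin.castAdd n₂, z ∘ Fin.natAdd n₁))
    (fun uv => Fin.append uv.1 uv.2) (by simp) (by simp) ?_ ?_ ?_
  · intro z _; exact Fin.append_castAdd_natAdd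
  · intro uv _
    exact Prod.ext (funext fun i => Fin.append_left _ _ i) (funext fun i => Fin.append_right _ _ i)
  · intro z _; rfl

/-- The number of points with coordinate sum zero. -/
lemma card_balanced (k : ℕ) :
    (univ.filter fun x : Fin (2 * k) → Bool => isum x = 0).card = (2 * k).choose k := by
  rw [show (2 * k).choose k = (powersetCard k (univ : Finset (Fin (2 * k)))).card by simp]
  have key : ∀ x : Fin (2 * k) → Bool,
      isum x = 2 * ((univ.filter fun i => x i = true).card : ℤ) - (2 * k : ℕ) := by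
    intro x
    have hs : ∀ i, (if x i = true then (1 : ℤ) else -1)
        = 2 * (if x i = true then (1 : ℤ) else 0) - 1 := fun i => by split <;> norm_num
    simp only [isum, hs, sum_sub_distrib, ← mul_sum, sum_boole]
    simp
  refine card_nbij' (fun x => univ.filter fun i => x i = true)
    (fun S i => decide (i ∈ S)) ?_ ?_ ?_ ?_
  · intro x hx
    simp only [coe_filter, mem_univ, true_and, Set.mem_ofPred_eq] at hx
    rw [mem_coe, mem_powersetCard]
    have := key x
    refine ⟨subset_univ _, ?_⟩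
    show (univ.filter fun i => x i = true).card = k
    omega
  · intro S hS
    rw [mem_coe, mem_powersetCard] at hS
    simp only [coe_filter, mem_univ, true_and, Set.mem_ofPred_eq, key]
    simp [hS.2]
  · intro x _; funext i; simp
  · intro S _; ext i; simp

lemma abs_sum_step {n : ℕ} :
    ∑ x : Fin (n + 1) → Bool, |wsum x| = 2 * ∑ x : Fin n → Bool, |wsum x|
      + 2 * ((univ.filter fun x : Fin n → Bool => isum x = 0).card : ℝ) := by
  rw [sum_cons, Fintype.sum_bool, ← sum_add_distrib, mul_sum, ← sum_boole, mul_sum,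
    ← sum_add_distrib]
  refine sum_congr rfl fun y _ => ?_
  simp only [wsum_cons, wsum_eq y, sgn, if_true, Bool.false_eq_true, if_false]
  rcases lt_trichotomy (isum y) 0 with h | h | h
  · have : (isum y : ℝ) ≤ -1 := by exact_mod_cast (by omega : isum y ≤ -1)
    rw [abs_of_nonpos (by linarith : (1 : ℝ) + isum y ≤ 0),
      abs_of_nonpos (by linarith : (-1 : ℝ) + isum y ≤ 0),
      abs_of_nonpos (by linarith : (isum y : ℝ) ≤ 0), if_neg (by omega)]
    ring
  · simp [h]; norm_num
  · have : (1 : ℝ) ≤ isum y := by exact_mod_cast (by omega : 1 ≤ isum y)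
    rw [abs_of_nonneg (by linarith : (0 : ℝ) ≤ 1 + isum y),
      abs_of_nonneg (by linarith : (0 : ℝ) ≤ -1 + isum y),
      abs_of_nonneg (by linarith : (0 : ℝ) ≤ (isum y : ℝ)), if_neg (by omega)]
    ring

lemma abs_sum_even : ∀ k : ℕ, ∑ x : Fin (2 * k) → Bool, |wsum x| = 2 * k * ((2 * k).choose k : ℝ)
  | 0 => by simp [wsum]
  | k + 1 => by
    show ∑ x : Fin (2 * k + 1 + 1) → Bool, |wsum x| = _
    rw [abs_sum_step, abs_sum_step, abs_sum_even k, card_balanced]
    have hodd : (univ.filter fun x : Fin (2 * k + 1) → Bool => isum x = 0) = ∅ := by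
      refine filter_eq_empty_iff.mpr fun x _ h => ?_
      have hs : ∀ i, (if x i = true then (1 : ℤ) else -1)
          = 2 * (if x i = true then (1 : ℤ) else 0) - 1 := fun i => by split <;> norm_num
      simp only [isum, hs, sum_sub_distrib, ← mul_sum, sum_boole] at h
      simp at h
      omega
    have hrec := Nat.succ_mul_centralBinom_succ k
    rw [Nat.centralBinom_eq_two_mul_choose, Nat.centralBinom_eq_two_mul_choose] at hrec
    have : ((k : ℝ) + 1) * ((2 * (k + 1)).choose (k + 1) : ℝ)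
        = 2 * (2 * k + 1) * ((2 * k).choose k : ℝ) := by exact_mod_cast hrec
    simp [hodd]
    linear_combination -2 * this

lemma choose_lower : ∀ k : ℕ, 4 ≤ k →
    0.299 * (16 : ℝ) ^ k ≤ (k : ℝ) * ((2 * k).choose k : ℝ) ^ 2 := by
  intro k hk
  induction k, hk using Nat.le_induction with
  | base => norm_num [Nat.choose_eq_factorial_div_factorial, Nat.factorial]
  | succ k hk ih =>
    have hrec := Nat.succ_mul_centralBinom_succ k
    rw [Nat.centralBinom_eq_two_mul_choose, Nat.centralBinom_eq_two_mul_choose] at hrec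
    have h : ((k : ℝ) + 1) * ((2 * (k + 1)).choose (k + 1) : ℝ)
        = 2 * (2 * k + 1) * ((2 * k).choose k : ℝ) := by exact_mod_cast hrec
    set c := ((2 * k).choose k : ℝ)
    set c' := ((2 * (k + 1)).choose (k + 1) : ℝ)
    have hk' : (0 : ℝ) < (k : ℝ) + 1 := by positivity
    push_cast
    refine le_of_mul_le_mul_left ?_ hk'
    calc ((k : ℝ) + 1) * (0.299 * 16 ^ (k + 1)) = 16 * ((k : ℝ) + 1) * (0.299 * 16 ^ k) := by ring
      _ ≤ 16 * ((k : ℝ) + 1) * ((k : ℝ) * c ^ 2) := by gcongr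
      _ ≤ 4 * (2 * (k : ℝ) + 1) ^ 2 * c ^ 2 := by nlinarith [sq_nonneg c]
      _ = _ := by
        have : (((k : ℝ) + 1) * c') ^ 2 = (2 * (2 * k + 1) * c) ^ 2 := by rw [h]
        linear_combination -this

/-- The mean absolute coordinate sum is at least `0.773 √n`. -/
lemma abs_sum_lower {n : ℕ} (he : Even n) (h8 : 8 ≤ n) :
    0.773 * Real.sqrt n * 2 ^ n ≤ ∑ x : Fin n → Bool, |wsum x| := by
  obtain ⟨k, rfl⟩ := even_iff_two_dvd.mp he
  rw [abs_sum_even]
  have h := choose_lower k (by omega)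
  refine le_of_pow_le_pow_left₀ two_ne_zero (by positivity) ?_
  rw [mul_pow, mul_pow, Real.sq_sqrt (by positivity), ← pow_mul]
  push_cast
  rw [show (2 : ℝ) ^ (2 * k * 2) = 16 ^ k by rw [show 2 * k * 2 = 4 * k by ring, pow_mul]; norm_num]
  nlinarith [pow_pos (by norm_num : (0 : ℝ) < 16) k, (Nat.cast_nonneg k : (0 : ℝ) ≤ k)]

/-- A power as an average of Chebyshev polynomials. -/
lemma pow_eq_cheb (s : ℝ) : ∀ J : ℕ,
    ∑ x : Fin J → Bool, (Chebyshev.T ℝ (isum x)).eval s = 2 ^ J * s ^ J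
  | 0 => by simp [isum]
  | J + 1 => by
    rw [sum_cons, Fintype.sum_bool, ← sum_add_distrib]
    have : ∀ y : Fin J → Bool,
        (Chebyshev.T ℝ (isum (Fin.cons true y : Fin (J + 1) → Bool))).eval s
          + (Chebyshev.T ℝ (isum (Fin.cons false y : Fin (J + 1) → Bool))).eval s
          = 2 * s * (Chebyshev.T ℝ (isum y)).eval s := by
      intro y
      rw [isum_cons, isum_cons, if_pos rfl, if_neg (by simp), add_comm 1, add_comm (-1),
        Chebyshev.T_add_one, ← sub_eq_add_neg]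
      simp
    simp_rw [this, ← mul_sum, pow_eq_cheb s J]
    ring

/-- The antiderivative vanishing at zero. -/
noncomputable def antider (P : ℚ[X]) : ℚ[X] :=
  ∑ k ∈ range (P.natDegree + 1), Polynomial.C (P.coeff k / (k + 1)) * Polynomial.X ^ (k + 1)

lemma antider_hasDeriv (P : ℚ[X]) (v : ℝ) :
    HasDerivAt (fun u : ℝ => aeval u (antider P)) (aeval v P) v := by
  have h := (antider P).hasDerivAt_aeval v
  have hd : derivative (antider P) = P := by
    rw [antider, derivative_sum]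
    conv_rhs => rw [P.as_sum_range_C_mul_X_pow]
    refine sum_congr rfl fun k _ => ?_
    rw [derivative_C_mul_X_pow, Nat.add_sub_cancel]
    congr 2
    push_cast
    field_simp
  rwa [hd] at h

lemma antider_zero (P : ℚ[X]) : aeval (0 : ℝ) (antider P) = 0 := by simp [antider]

lemma antider_degree (P : ℚ[X]) : (antider P).natDegree ≤ P.natDegree + 1 := by
  refine natDegree_sum_le_of_forall_le _ _ fun k hk => ?_
  refine (natDegree_C_mul_X_pow_le _ _).trans ?_
  have := mem_range.mp hk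
  omega

lemma aeval_T (j : ℤ) (s : ℝ) : aeval s (Chebyshev.T ℚ j) = (Chebyshev.T ℝ j).eval s := by
  rw [Chebyshev.aeval_T]

/-- A rational polynomial close to the sign outside `(-w, w)`. -/
theorem exists_sign_approx {j D : ℕ} (hj : 1 ≤ j) (hD : 1 ≤ D) {w ε : ℝ} (hw : 0 < w) (hw1 : w ≤ 1)
    (hjw : 2 ≤ ε * j * w) (hjD : 48 * (j : ℝ) ^ 5 ≤ ε * (D : ℝ) ^ 4) :
    ∃ h : ℚ[X], h.natDegree ≤ 2 * D + 1 ∧
      (∀ u ∈ Set.Icc (-1 : ℝ) 1, |aeval u h| ≤ 1) ∧
      ∀ u ∈ Set.Icc (-1 : ℝ) 1, w ≤ |u| → (1 - 3 * ε) * |u| ≤ aeval u h * u := by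
  classical
  set J := 2 * j ^ 2 with hJ
  set σ : ℚ[X] := 1 - Polynomial.X ^ 2
  set g : ℚ[X] := Polynomial.C (1 / 2 ^ J : ℚ) *
    ∑ x ∈ univ.filter (fun x : Fin J → Bool => (isum x).natAbs ≤ D),
      (Chebyshev.T ℚ (isum x)).comp σ with hg
  set η : ℚ := 3 * (J : ℚ) ^ 2 / (D : ℚ) ^ 4 with hη
  have hη0 : (0 : ℝ) ≤ (η : ℝ) := by rw [hη]; push_cast; positivity
  have hσ : ∀ v : ℝ, aeval v σ = 1 - v ^ 2 := fun v => by simp [σ]
  have hgdeg : g.natDegree ≤ 2 * D := by
    refine (natDegree_C_mul_le _ _).trans (natDegree_sum_le_of_forall_le _ _ fun x hx => ?_)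
    rw [natDegree_comp, Chebyshev.natDegree_T]
    have h2 : σ.natDegree ≤ 2 := by
      refine (natDegree_sub_le _ _).trans ?_
      simp
    calc (isum x).natAbs * σ.natDegree ≤ D * 2 := Nat.mul_le_mul (mem_filter.mp hx).2 h2
      _ = 2 * D := Nat.mul_comm _ _
  have hclose : ∀ v ∈ Set.Icc (-1 : ℝ) 1, |aeval v g - (1 - v ^ 2) ^ J| ≤ (η : ℝ) := by
    intro v hv
    set s := 1 - v ^ 2 with hs
    have hs1 : |s| ≤ 1 := by rw [abs_le]; constructor <;> nlinarith [hv.1, hv.2]
    have hval : aeval v g = (∑ x ∈ univ.filter (fun x : Fin J → Bool => (isum x).natAbs ≤ D),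
        (Chebyshev.T ℝ (isum x)).eval s) / 2 ^ J := by
      simp only [hg, map_mul, map_sum, aeval_C, aeval_comp, hσ, aeval_T, eq_ratCast, ← hs]
      push_cast
      ring
    have hpow : s ^ J = (∑ x : Fin J → Bool, (Chebyshev.T ℝ (isum x)).eval s) / 2 ^ J := by
      rw [pow_eq_cheb]; field_simp
    rw [hval, hpow, ← sub_div, abs_div, abs_of_pos (by positivity : (0 : ℝ) < 2 ^ J),
      div_le_iff₀ (by positivity),
      ← sum_filter_add_sum_filter_not univ (fun x : Fin J → Bool => (isum x).natAbs ≤ D),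
      sub_add_cancel_left, abs_neg]
    refine (abs_sum_le_sum_abs _ _).trans ?_
    have hterm : ∀ x ∈ univ.filter (fun x : Fin J → Bool => ¬ (isum x).natAbs ≤ D),
        |(Chebyshev.T ℝ (isum x)).eval s| ≤ wsum x ^ 4 / (D : ℝ) ^ 4 := by
      intro x hx
      refine (Chebyshev.abs_eval_T_real_le_one _ hs1).trans ?_
      rw [le_div_iff₀ (by positivity), one_mul, wsum_eq]
      have hD' : (D : ℤ) ≤ |isum x| := by
        have := (mem_filter.mp hx).2
        rw [Int.abs_eq_natAbs]; omega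
      calc (D : ℝ) ^ 4 ≤ |(isum x : ℝ)| ^ 4 :=
            pow_le_pow_left₀ (by positivity) (by exact_mod_cast hD') 4
        _ = _ := by rw [pow_abs, abs_of_nonneg (by positivity)]
    refine (sum_le_sum hterm).trans ((sum_le_sum_of_subset_of_nonneg (filter_subset _ _)
      fun x _ _ => by positivity).trans ?_)
    rw [← sum_div, div_le_iff₀ (by positivity)]
    refine (moment_four J).trans (le_of_eq ?_)
    rw [hη]; push_cast; field_simp
  set H : ℝ → ℝ := fun u => aeval u (antider g) with hH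
  set G : ℝ → ℝ := fun u => aeval u (antider (σ ^ J)) with hG
  have hG' : ∀ v, HasDerivAt G ((1 - v ^ 2) ^ J) v := fun v => by
    have := antider_hasDeriv (σ ^ J) v
    rwa [map_pow, hσ] at this
  have hG0 : G 0 = 0 := antider_zero _
  have hmono : MonotoneOn G (Set.Icc (-1 : ℝ) 1) := by
    refine monotoneOn_of_hasDerivWithinAt_nonneg (convex_Icc _ _)
      (fun v _ => (hG' v).continuousAt.continuousWithinAt)
      (fun v _ => (hG' v).hasDerivWithinAt) fun v hv => ?_
    rw [interior_Icc] at hv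
    exact pow_nonneg (by nlinarith [hv.1, hv.2]) _
  have hodd : ∀ u, G (-u) = -G u := by
    intro u
    have hd : ∀ v, HasDerivAt (fun v => G v + G (-v)) 0 v := by
      intro v
      have h2 := (hG' (-v)).comp v (hasDerivAt_neg v)
      have h3 := (hG' v).add h2
      simp only [neg_sq, mul_neg, mul_one, add_neg_cancel] at h3
      exact h3
    have h4 := is_const_of_deriv_eq_zero (fun v => (hd v).differentiableAt) (fun v => (hd v).deriv) u 0
    simp [hG0] at h4
    linarith
  have hHG : ∀ u ∈ Set.Icc (-1 : ℝ) 1, |H u - G u| ≤ (η : ℝ) := by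
    intro u hu
    have h1 := (convex_Icc (-1 : ℝ) 1).norm_image_sub_le_of_norm_hasDerivWithin_le
      (f := fun v => H v - G v) (f' := fun v => aeval v g - (1 - v ^ 2) ^ J) (C := (η : ℝ))
      (fun v _ => ((antider_hasDeriv g v).sub (hG' v)).hasDerivWithinAt)
      (fun v hv => hclose v hv) (⟨by norm_num, by norm_num⟩ : (0 : ℝ) ∈ Set.Icc (-1 : ℝ) 1) hu
    simp only [hH, antider_zero, hG0, sub_zero, Real.norm_eq_abs] at h1
    refine h1.trans (mul_le_of_le_one_right hη0 ?_)
    rw [abs_le]; exact ⟨hu.1, hu.2⟩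
  -- the normalisation
  set I : ℚ := (antider (σ ^ J)).eval 1 with hI
  have hI' : (I : ℝ) = G 1 := by
    rw [hI, hG]
    simp only
    have := Polynomial.aeval_algebraMap_apply ℝ (1 : ℚ) (antider (σ ^ J))
    simp at this
    rw [this]
  have hjpos : (0 : ℝ) < j := by exact_mod_cast hj
  have hIlow : 1 / (4 * (j : ℝ)) ≤ (I : ℝ) := by
    rw [hI']
    set a := 1 / (2 * (j : ℝ)) with ha
    have ha0 : 0 ≤ a := by positivity
    have ha1 : a ≤ 1 := by
      rw [ha, div_le_one (by positivity)]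
      have : (1 : ℝ) ≤ j := by exact_mod_cast hj
      linarith
    have h1 : MonotoneOn (fun v => G v - v / 2) (Set.Icc 0 a) := by
      refine monotoneOn_of_hasDerivWithinAt_nonneg (convex_Icc _ _)
        (fun v _ => ((hG' v).sub ((hasDerivAt_id v).div_const 2)).continuousAt.continuousWithinAt)
        (fun v _ => ((hG' v).sub ((hasDerivAt_id v).div_const 2)).hasDerivWithinAt) fun v hv => ?_
      rw [interior_Icc] at hv
      have hb := one_add_mul_le_pow (a := -v ^ 2) (by nlinarith [hv.1, hv.2]) J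
      rw [← sub_eq_add_neg] at hb
      have : (J : ℝ) * v ^ 2 ≤ 1 / 2 := by
        have hva : v ^ 2 ≤ a ^ 2 := pow_le_pow_left₀ hv.1.le hv.2.le 2
        calc (J : ℝ) * v ^ 2 ≤ (J : ℝ) * a ^ 2 := by gcongr
          _ = 1 / 2 := by rw [ha, hJ]; push_cast; field_simp
      linarith
    have h2 := h1 (Set.left_mem_Icc.mpr ha0) (Set.right_mem_Icc.mpr ha0) ha0
    have h3 := hmono ⟨by linarith, ha1⟩ (Set.right_mem_Icc.mpr (by norm_num)) ha1
    simp only [hG0] at h2
    have e : a / 2 = 1 / (4 * (j : ℝ)) := by rw [ha]; field_simp; ring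
    linarith
  have htail : G 1 - G w ≤ 1 / ((J : ℝ) * w) := by
    have hJpos : (0 : ℝ) < J := by rw [hJ]; push_cast; positivity
    have h1 : AntitoneOn (fun v => G v + 1 / (J : ℝ) * v⁻¹) (Set.Icc w 1) := by
      have hd : ∀ v, v ≠ 0 → HasDerivAt (fun v => G v + 1 / (J : ℝ) * v⁻¹)
          ((1 - v ^ 2) ^ J + 1 / (J : ℝ) * -(v ^ 2)⁻¹) v :=
        fun v hv => (hG' v).add ((hasDerivAt_inv hv).const_mul _)
      refine antitoneOn_of_hasDerivWithinAt_nonpos (convex_Icc _ _)
        (fun v hv => (hd v (by linarith [hv.1])).continuousAt.continuousWithinAt)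
        (fun v hv => (hd v (by rw [interior_Icc] at hv; linarith [hv.1])).hasDerivWithinAt)
        fun v hv => ?_
      rw [interior_Icc] at hv
      have hv0 : 0 < v := hw.trans hv.1
      have hb := one_add_mul_le_pow (a := v ^ 2) (by nlinarith) J
      have h0 : 0 ≤ (1 - v ^ 2) ^ J := pow_nonneg (by nlinarith [hv.2]) _
      have h1 : (1 - v ^ 2) ^ J * (1 + v ^ 2) ^ J ≤ 1 := by
        rw [← mul_pow]; exact pow_le_one₀ (mul_nonneg (by nlinarith [hv.2]) (by positivity)) (by nlinarith [sq_nonneg (v ^ 2)])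
      have h2 : (1 - v ^ 2) ^ J ≤ 1 / ((J : ℝ) * v ^ 2) := by
        rw [le_div_iff₀ (by positivity)]
        nlinarith [mul_le_mul_of_nonneg_left hb h0]
      have e : 1 / (J : ℝ) * -(v ^ 2)⁻¹ = -(1 / ((J : ℝ) * v ^ 2)) := by
        rw [mul_neg, one_div, one_div, mul_inv]
      linarith
    have h2 := h1 (Set.left_mem_Icc.mpr hw1) (Set.right_mem_Icc.mpr hw1) hw1
    simp only [inv_one, mul_one] at h2
    have e : 1 / ((J : ℝ) * w) = 1 / (J : ℝ) * w⁻¹ := by rw [one_div, one_div, mul_inv]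
    have : 0 ≤ 1 / (J : ℝ) := by positivity
    linarith
  have hεpos : 0 < ε := by
    by_contra h
    push Not at h
    have : (0 : ℝ) ≤ (j : ℝ) * w := by positivity
    nlinarith
  have hIpos : (0 : ℝ) < (I : ℝ) := lt_of_lt_of_le (by positivity) hIlow
  have hηI : (η : ℝ) ≤ ε * I := by
    refine le_trans ?_ (mul_le_mul_of_nonneg_left hIlow hεpos.le)
    rw [hη, hJ]; push_cast
    rw [div_le_iff₀ (by positivity), mul_one_div, div_mul_eq_mul_div, le_div_iff₀ (by positivity)]
    nlinarith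
  have htailI : 1 / ((J : ℝ) * w) ≤ ε * I := by
    refine le_trans ?_ (mul_le_mul_of_nonneg_left hIlow hεpos.le)
    rw [hJ]; push_cast
    rw [mul_one_div, div_le_div_iff₀ (by positivity) (by positivity)]
    nlinarith [mul_le_mul_of_nonneg_left hjw hjpos.le]
  set c : ℚ := (I + η)⁻¹ with hc
  have hcpos : (0 : ℝ) < (c : ℝ) := by rw [hc]; push_cast; positivity
  have hceq : (c : ℝ) * ((I : ℝ) + η) = 1 := by
    rw [hc]; push_cast; exact inv_mul_cancel₀ (by positivity)
  have hbound : ∀ u ∈ Set.Icc (-1 : ℝ) 1, |H u| ≤ (I : ℝ) + η := by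
    intro u hu
    have h1 := abs_le.mp (hHG u hu)
    have h2 := hmono (Set.left_mem_Icc.mpr (by norm_num)) hu hu.1
    have h3 := hmono hu (Set.right_mem_Icc.mpr (by norm_num)) hu.2
    rw [hodd, ← hI'] at h2
    rw [← hI'] at h3
    rw [abs_le]; constructor <;> linarith
  refine ⟨Polynomial.C c * antider g, ?_, ?_, ?_⟩
  · exact (natDegree_C_mul_le _ _).trans ((antider_degree g).trans (by omega))
  · intro u hu
    rw [map_mul, aeval_C, eq_ratCast, abs_mul, abs_of_pos hcpos]
    exact (mul_le_mul_of_nonneg_left (hbound u hu) hcpos.le).trans (le_of_eq hceq)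
  · intro u hu hwu
    rw [map_mul, aeval_C, eq_ratCast]
    have hkey : (I : ℝ) * (1 - 2 * ε) * |u| ≤ H u * u := by
      have h1 := abs_le.mp (hHG u hu)
      rcases le_or_gt 0 u with hp | hn
      · rw [abs_of_nonneg hp] at hwu ⊢
        have := hmono ⟨by linarith, hw1⟩ hu hwu
        rw [← hI'] at htail
        exact mul_le_mul_of_nonneg_right (by linarith) hp
      · rw [abs_of_neg hn] at hwu ⊢
        have := hmono ⟨by linarith, hw1⟩ ⟨by linarith, by linarith [hu.1]⟩ hwu
        rw [hodd] at this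
        rw [← hI'] at htail
        nlinarith
    have h5 : (1 - 3 * ε) ≤ (c : ℝ) * ((I : ℝ) * (1 - 2 * ε)) := by
      have hcI : (I : ℝ) + η ≤ (I : ℝ) * (1 + ε) := by linarith
      rcases le_or_gt (1 - 3 * ε) 0 with hneg | hnn
      · have : 1 - 3 * ε ≤ (c : ℝ) * ((I : ℝ) + η) * (1 - 3 * ε) := by rw [hceq, one_mul]
        nlinarith [mul_le_mul_of_nonneg_left hcI hcpos.le]
      · calc 1 - 3 * ε = (c : ℝ) * (((I : ℝ) + η) * (1 - 3 * ε)) := by rw [← mul_assoc, hceq, one_mul]
          _ ≤ (c : ℝ) * (((I : ℝ) * (1 + ε)) * (1 - 3 * ε)) := by gcongr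
          _ ≤ _ := by gcongr ?_ * ?_; nlinarith
    calc (1 - 3 * ε) * |u| ≤ (c : ℝ) * ((I : ℝ) * (1 - 2 * ε)) * |u| := by gcongr
      _ ≤ (c : ℝ) * (H u * u) := by rw [mul_assoc]; gcongr
      _ = _ := by ring

end Vale.Agent.P047
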