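import Mathlib

/-!
Fourier analysis on the cube `Fin n → Bool`: degree, composition and balancing.
-/

namespace Vale.Agent.P047

open Finset

/-- The value `1` for `true` and `-1` for `false`. -/
def sgn (b : Bool) : ℝ := if b then 1 else -1

/-- The monomial `∏_{i ∈ S} x_i`. -/
def chi {n : ℕ} (S : Finset (Fin n)) (x : Fin n → Bool) : ℝ := ∏ i ∈ S, sgn (x i)

/-- The Fourier coefficient `E[f(X) ∏_{i ∈ S} X_i]`. -/
noncomputable def coef {n : ℕ} (f : (Fin n → Bool) → ℝ) (S : Finset (Fin n)) : ℝ :=
  (∑ x, f x * chi S x) / 2 ^ n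

/-- The degree: the largest size of a set with nonzero coefficient. -/
noncomputable def deg {n : ℕ} (f : (Fin n → Bool) → ℝ) : ℕ :=
  by classical exact ((univ : Finset (Finset (Fin n))).filter (fun S => coef f S ≠ 0)).sup card

/-- Boolean means that all values are `1` or `-1`. -/
def IsBoolean {n : ℕ} (f : (Fin n → Bool) → ℝ) : Prop := ∀ x, f x = 1 ∨ f x = -1

/-- The sum of the linear coefficients. -/
noncomputable def linSum {n : ℕ} (f : (Fin n → Bool) → ℝ) : ℝ := ∑ i, coef f {i}

/-- `M d` is the supremum of the linear sums of Boolean functions of degree at most `d`. -/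
noncomputable def M (d : ℕ) : ℝ :=
  sSup {r : ℝ | ∃ (n : ℕ) (f : (Fin n → Bool) → ℝ),
    1 ≤ n ∧ IsBoolean f ∧ deg f ≤ d ∧ linSum f = r}

@[simp] lemma sgn_mul_self (b : Bool) : sgn b * sgn b = 1 := by cases b <;> simp [sgn]

lemma sgn_beq (a b : Bool) : sgn (a == b) = sgn a * sgn b := by
  cases a <;> cases b <;> simp [sgn]

lemma sgn_eq_of (b : Bool) (r : ℝ) (hr : r = 1 ∨ r = -1) (hb : b = true ↔ r = 1) :
    sgn b = r := by
  rcases hr with h | h
  · rw [hb.mpr h, h]; rfl
  · cases b
    · rw [h]; rfl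
    · exact absurd (hb.mp rfl) (by rw [h]; norm_num)

lemma chi_eq {n : ℕ} (S : Finset (Fin n)) (x : Fin n → Bool) :
    chi S x = ∏ i, if i ∈ S then sgn (x i) else 1 := by
  simp [chi, Finset.prod_ite_mem]

lemma sum_chi {n : ℕ} (S : Finset (Fin n)) :
    ∑ x, chi S x = if S = ∅ then (2 : ℝ) ^ n else 0 := by
  classical
  simp_rw [chi_eq]
  rw [← Fintype.prod_sum (fun i (b : Bool) => if i ∈ S then sgn b else 1)]
  split
  · next h => simp [h]
  · next h =>
    obtain ⟨i, hi⟩ := Finset.nonempty_iff_ne_empty.mpr h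
    exact Finset.prod_eq_zero (mem_univ i) (by simp [hi, sgn])

lemma chi_mul {n : ℕ} (S T : Finset (Fin n)) (x : Fin n → Bool) :
    chi S x * chi T x = chi (symmDiff S T) x := by
  rw [chi_eq, chi_eq, chi_eq, ← prod_mul_distrib]
  refine prod_congr rfl fun i _ => ?_
  by_cases hS : i ∈ S <;> by_cases hT : i ∈ T <;> simp [hS, hT, mem_symmDiff]

lemma sum_chi_mul {n : ℕ} (S T : Finset (Fin n)) :
    ∑ x, chi S x * chi T x = if S = T then (2 : ℝ) ^ n else 0 := by
  simp_rw [chi_mul]
  rw [sum_chi]
  simp only [← Finset.bot_eq_empty, symmDiff_eq_bot]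

/-- Fourier inversion. -/
lemma expansion {n : ℕ} (f : (Fin n → Bool) → ℝ) (x : Fin n → Bool) :
    f x = ∑ S, coef f S * chi S x := by
  classical
  have key : ∀ y : Fin n → Bool, ∑ S, chi S y * chi S x = if y = x then (2 : ℝ) ^ n else 0 := by
    intro y
    have : ∀ S, chi S y * chi S x = ∏ i ∈ S, (sgn (y i) * sgn (x i)) := by
      intro S; simp [chi, prod_mul_distrib]
    simp_rw [this]
    rw [← Finset.powerset_univ, ← Finset.prod_one_add]
    split
    · next h => subst h; simp; norm_num
    · next h =>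
      obtain ⟨i, hi⟩ := Function.ne_iff.mp h
      refine prod_eq_zero (mem_univ i) ?_
      revert hi
      cases y i <;> cases x i <;> simp [sgn]
  simp only [coef, div_mul_eq_mul_div, ← sum_div, sum_mul, mul_assoc]
  rw [sum_comm]
  simp_rw [← mul_sum, key]
  simp

/-- The functions spanned by monomials of size at most `d`. -/
noncomputable def low (n d : ℕ) : Submodule ℝ ((Fin n → Bool) → ℝ) :=
  Submodule.span ℝ {φ | ∃ S : Finset (Fin n), S.card ≤ d ∧ φ = chi S}

lemma chi_mem {n d : ℕ} (S : Finset (Fin n)) (h : S.card ≤ d) : chi S ∈ low n d :=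
  Submodule.subset_span ⟨S, h, rfl⟩

lemma low_mono {n d e : ℕ} (h : d ≤ e) : low n d ≤ low n e :=
  Submodule.span_mono fun _ ⟨S, hS, he⟩ => ⟨S, hS.trans h, he⟩

lemma mem_low {n d : ℕ} (f : (Fin n → Bool) → ℝ) (h : deg f ≤ d) : f ∈ low n d := by
  classical
  have : f = ∑ S, coef f S • chi S := by
    ext x; rw [expansion f x]; simp [Finset.sum_apply]
  rw [this]
  refine Submodule.sum_mem _ fun S _ => ?_
  by_cases hc : coef f S = 0
  · simp [hc]
  · refine Submodule.smul_mem _ _ (chi_mem S (le_trans ?_ h))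
    unfold deg
    exact Finset.le_sup (f := card) (by simp [hc])

lemma deg_le_of_low {n d : ℕ} (f : (Fin n → Bool) → ℝ) (h : f ∈ low n d) : deg f ≤ d := by
  classical
  unfold deg
  refine Finset.sup_le fun S hS => ?_
  simp only [mem_filter, mem_univ, true_and] at hS
  by_contra hlt
  refine hS ?_
  clear hS
  induction h using Submodule.span_induction with
  | mem φ hφ =>
    obtain ⟨T, hT, rfl⟩ := hφ
    rw [coef, sum_chi_mul, if_neg (by rintro rfl; omega)]
    simp
  | zero => simp [coef]
  | add a b _ _ ha hb =>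
    simp only [coef, Pi.add_apply, add_mul, sum_add_distrib, add_div] at *
    linarith
  | smul c a _ ha =>
    simp only [coef, Pi.smul_apply, smul_eq_mul, mul_assoc, ← mul_sum, mul_div_assoc] at *
    rw [ha, mul_zero]

lemma mul_mem_low {n a b : ℕ} {f g : (Fin n → Bool) → ℝ}
    (hf : f ∈ low n a) (hg : g ∈ low n b) : f * g ∈ low n (a + b) := by
  induction hf using Submodule.span_induction with
  | mem φ hφ =>
    obtain ⟨S, hS, rfl⟩ := hφ
    induction hg using Submodule.span_induction with
    | mem ψ hψ =>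
      obtain ⟨T, hT, rfl⟩ := hψ
      have hc : (symmDiff S T).card ≤ S.card + T.card :=
        (card_le_card (by intro i; simp [mem_symmDiff]; tauto)).trans (card_union_le S T)
      have : chi S * chi T = chi (symmDiff S T) := funext fun x => chi_mul S T x
      rw [this]; exact chi_mem _ (by omega)
    | zero => simp
    | add u v _ _ hu hv => rw [mul_add]; exact add_mem hu hv
    | smul c u _ hu => rw [mul_smul_comm]; exact Submodule.smul_mem _ _ hu
  | zero => simp
  | add u v _ _ hu hv => rw [add_mul]; exact add_mem hu hv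
  | smul c u _ hu => rw [smul_mul_assoc]; exact Submodule.smul_mem _ _ hu

lemma prod_mem_low {n D : ℕ} {ι : Type*} [DecidableEq ι] (S : Finset ι)
    (g : ι → (Fin n → Bool) → ℝ) (h : ∀ i, g i ∈ low n D) :
    (∏ i ∈ S, g i) ∈ low n (S.card * D) := by
  induction S using Finset.induction with
  | empty =>
    have : (∏ i ∈ (∅ : Finset ι), g i) = chi (∅ : Finset (Fin n)) := by ext x; simp [chi]
    rw [this]; exact chi_mem _ (by simp)
  | insert i s hi ih =>
    rw [prod_insert hi]
    refine low_mono ?_ (mul_mem_low (h i) ih)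
    rw [card_insert_of_notMem hi]; linarith

/-- Renaming variables along an injection keeps the degree. -/
lemma rename_mem {m n d : ℕ} (e : Fin m → Fin n) (he : Function.Injective e)
    {g : (Fin m → Bool) → ℝ} (hg : g ∈ low m d) : (fun z => g (z ∘ e)) ∈ low n d := by
  induction hg using Submodule.span_induction with
  | mem φ hφ =>
    obtain ⟨S, hS, rfl⟩ := hφ
    have : (fun z : Fin n → Bool => chi S (z ∘ e)) = chi (S.image e) := by
      ext z; simp [chi, prod_image (he.injOn)]
    rw [this]; exact chi_mem _ (card_image_le.trans hS)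
  | zero => exact Submodule.zero_mem _
  | add u v _ _ hu hv => exact add_mem hu hv
  | smul c u _ hu => exact Submodule.smul_mem _ c hu

/-! ### Block composition -/

/-- The Boolean input that represents the value of `g`. -/
noncomputable def bitOf (r : ℝ) : Bool := by classical exact decide (r = 1)

lemma sgn_bitOf {r : ℝ} (hr : r = 1 ∨ r = -1) : sgn (bitOf r) = r :=
  sgn_eq_of _ r hr (by simp [bitOf])

/-- `f` applied to disjoint copies of `g`. -/
noncomputable def comp {n m : ℕ} (f : (Fin n → Bool) → ℝ) (g : (Fin m → Bool) → ℝ) :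
    (Fin (n * m) → Bool) → ℝ :=
  fun z => f fun i => bitOf (g fun j => z (finProdFinEquiv (i, j)))

lemma comp_boolean {n m : ℕ} {f : (Fin n → Bool) → ℝ} {g : (Fin m → Bool) → ℝ}
    (hf : IsBoolean f) : IsBoolean (comp f g) := fun _ => hf _

lemma comp_expansion {n m : ℕ} (f : (Fin n → Bool) → ℝ) {g : (Fin m → Bool) → ℝ}
    (hg : IsBoolean g) :
    comp f g = ∑ S : Finset (Fin n), coef f S •
      ∏ i ∈ S, (fun z : Fin (n * m) → Bool => g fun j => z (finProdFinEquiv (i, j))) := by
  ext z
  simp only [comp, Finset.sum_apply, Pi.smul_apply, Finset.prod_apply, smul_eq_mul]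
  rw [expansion f]
  refine sum_congr rfl fun S _ => ?_
  congr 1
  exact prod_congr rfl fun i _ => sgn_bitOf (hg _)

lemma comp_low {n m d D : ℕ} {f : (Fin n → Bool) → ℝ} {g : (Fin m → Bool) → ℝ}
    (hg : IsBoolean g) (hf : deg f ≤ d) (hgD : g ∈ low m D) :
    comp f g ∈ low (n * m) (d * D) := by
  classical
  rw [comp_expansion f hg]
  refine Submodule.sum_mem _ fun S _ => ?_
  by_cases hc : coef f S = 0
  · simp [hc]
  · refine Submodule.smul_mem _ _ ?_
    have hS : S.card ≤ d := le_trans (by unfold deg; exact Finset.le_sup (f := card) (by simp [hc])) hf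
    refine low_mono (Nat.mul_le_mul_right D hS) (prod_mem_low S _ fun i => ?_)
    exact rename_mem (fun j => finProdFinEquiv (i, j))
      (fun a b h => by simpa using finProdFinEquiv.injective h) hgD

lemma sum_blocks {n m : ℕ} (φ : Fin n → (Fin m → Bool) → ℝ) :
    ∑ z : Fin (n * m) → Bool, ∏ i, φ i (fun j => z (finProdFinEquiv (i, j)))
      = ∏ i, ∑ y, φ i y := by
  classical
  rw [Fintype.prod_sum]
  refine Fintype.sum_equiv ((Equiv.arrowCongr finProdFinEquiv.symm (Equiv.refl Bool)).trans
    (Equiv.curry (Fin n) (Fin m) Bool)) _ _ fun z => ?_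
  rfl

lemma comp_coef {n m : ℕ} (f : (Fin n → Bool) → ℝ) {g : (Fin m → Bool) → ℝ}
    (hg : IsBoolean g) (hbal : ∑ y, g y = 0) (i : Fin n) (j : Fin m) :
    coef (comp f g) {finProdFinEquiv (i, j)} = coef f {i} * coef g {j} := by
  classical
  have key : ∀ S : Finset (Fin n),
      ∑ z : Fin (n * m) → Bool,
        (∏ k ∈ S, g fun l => z (finProdFinEquiv (k, l))) * sgn (z (finProdFinEquiv (i, j)))
      = if S = {i} then (2 : ℝ) ^ (n * m) * coef g {j} else 0 := by
    intro S
    set φ : Fin n → (Fin m → Bool) → ℝ :=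
      fun k y => (if k ∈ S then g y else 1) * (if k = i then sgn (y j) else 1) with hφ
    have hrw : ∀ z : Fin (n * m) → Bool,
        (∏ k ∈ S, g fun l => z (finProdFinEquiv (k, l))) * sgn (z (finProdFinEquiv (i, j)))
          = ∏ k, φ k (fun l => z (finProdFinEquiv (k, l))) := by
      intro z
      simp only [hφ]
      rw [prod_mul_distrib, Fintype.prod_ite_eq' i, Finset.prod_ite_mem, univ_inter]
    simp_rw [hrw]
    rw [sum_blocks]
    split
    · next h =>
      subst h
      rw [← mul_prod_erase univ _ (mem_univ i)]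
      have : ∀ k ∈ univ.erase i, ∑ y, φ k y = (2 : ℝ) ^ m := by
        intro k hk
        simp [hφ, (mem_erase.mp hk).1]
      rw [prod_congr rfl this, prod_const, card_erase_of_mem (mem_univ i)]
      have hn : 0 < n := Fin.pos i
      simp only [card_univ, Fintype.card_fin, hφ, mem_singleton, if_true]
      have hpow : (2 : ℝ) ^ (n * m) = 2 ^ m * (2 ^ m) ^ (n - 1) := by
        rw [← pow_succ', ← pow_mul]; congr 1
        rw [Nat.sub_add_cancel hn]; ring
      rw [hpow, coef]
      simp only [chi, prod_singleton]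
      field_simp
    · next h =>
      by_cases hex : ∃ k ∈ S, k ≠ i
      · obtain ⟨k, hk, hki⟩ := hex
        exact prod_eq_zero (mem_univ k) (by simp [hφ, hk, hki, hbal])
      · have hS : S = ∅ := by
          push Not at hex
          by_contra hne
          obtain ⟨k, hk⟩ := Finset.nonempty_iff_ne_empty.mpr hne
          exact h (eq_singleton_iff_unique_mem.mpr ⟨hex k hk ▸ hk, hex⟩)
        refine prod_eq_zero (mem_univ i) ?_
        have := sum_chi ({j} : Finset (Fin m))
        simpa [hφ, hS, chi] using this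
  rw [coef]
  simp_rw [comp_expansion f hg, Finset.sum_apply, Pi.smul_apply, Finset.prod_apply, smul_eq_mul,
    chi, prod_singleton, sum_mul, mul_assoc]
  rw [sum_comm]
  simp_rw [← mul_sum, key]
  simp
  field_simp

lemma comp_linSum {n m : ℕ} (f : (Fin n → Bool) → ℝ) {g : (Fin m → Bool) → ℝ}
    (hg : IsBoolean g) (hbal : ∑ y, g y = 0) :
    linSum (comp f g) = linSum f * linSum g := by
  rw [linSum, ← finProdFinEquiv.sum_comp, Fintype.sum_prod_type]
  simp_rw [comp_coef f hg hbal]
  rw [linSum, linSum, sum_mul_sum]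

/-! ### Balancing -/

/-- `(b, y) ↦ s b * f (b y)`. -/
def bal {n : ℕ} (s : Bool) (f : (Fin n → Bool) → ℝ) : (Fin (n + 1) → Bool) → ℝ :=
  fun z => sgn (z 0 == s) * f (fun i => z i.succ == (z 0 == s))

lemma bal_boolean {n : ℕ} (s : Bool) {f : (Fin n → Bool) → ℝ} (hf : IsBoolean f) :
    IsBoolean (bal s f) := by
  intro z
  rcases hf (fun i => z i.succ == (z 0 == s)) with h | h <;>
    cases hb : (z 0 == s) <;> simp [bal, sgn, hb] <;> rw [hb] at h <;> simp_all

lemma bal_low {n D : ℕ} (s : Bool) {f : (Fin n → Bool) → ℝ} (hf : f ∈ low n D) :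
    bal s f ∈ low (n + 1) (D + 1) := by
  classical
  induction hf using Submodule.span_induction with
  | mem φ hφ =>
    obtain ⟨S, hS, rfl⟩ := hφ
    have : bal s (chi S) = (sgn s ^ (S.card + 1)) •
        ((∏ _i ∈ range (S.card + 1), chi ({0} : Finset (Fin (n + 1)))) *
          chi (S.map (Fin.succEmb n))) := by
      ext z
      simp [bal, chi, sgn_beq, prod_mul_distrib, mul_pow, pow_succ]
      ring
    rw [this]
    refine Submodule.smul_mem _ _ ?_
    have h0 : (∏ _i ∈ range (S.card + 1), chi ({0} : Finset (Fin (n + 1)))) ∈ low (n + 1) 1 := by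
      rw [prod_const, card_range]
      rcases Nat.even_or_odd (S.card + 1) with he | ho
      · have : chi ({0} : Finset (Fin (n + 1))) ^ (S.card + 1) = chi ∅ := by
          obtain ⟨k, hk⟩ := he
          ext z; rw [Pi.pow_apply, hk, ← two_mul, pow_mul]; simp [chi, sq]
        rw [this]; exact chi_mem _ (by simp)
      · have : chi ({0} : Finset (Fin (n + 1))) ^ (S.card + 1) = chi {0} := by
          obtain ⟨k, hk⟩ := ho
          ext z; rw [Pi.pow_apply, hk, pow_succ, pow_mul]; simp [chi, sq]
        rw [this]; exact chi_mem _ (by simp)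
    refine low_mono ?_ (mul_mem_low h0 (chi_mem (d := S.card) _ (by simp)))
    omega
  | zero =>
    have : bal s (0 : (Fin n → Bool) → ℝ) = 0 := by ext z; simp [bal]
    rw [this]; exact Submodule.zero_mem _
  | add a b _ _ ha hb =>
    have : bal s (a + b) = bal s a + bal s b := by ext z; simp [bal, mul_add]
    rw [this]; exact add_mem ha hb
  | smul c a _ ha =>
    have : bal s (c • a) = c • bal s a := by ext z; simp [bal, mul_left_comm]
    rw [this]; exact Submodule.smul_mem _ _ ha

lemma sum_cons {n : ℕ} (F : (Fin (n + 1) → Bool) → ℝ) :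
    ∑ z, F z = ∑ b : Bool, ∑ y : Fin n → Bool, F (Fin.cons b y) := by
  rw [← (Fin.consEquiv (fun _ : Fin (n + 1) => Bool)).sum_comp, Fintype.sum_prod_type]
  rfl

/-- `y ↦ (y_i == b)`, an involution of the cube. -/
def twist {n : ℕ} (b : Bool) : (Fin n → Bool) ≃ (Fin n → Bool) where
  toFun y i := y i == b
  invFun y i := y i == b
  left_inv y := by ext i; cases h : y i <;> cases b <;> simp [h]
  right_inv y := by ext i; cases h : y i <;> cases b <;> simp [h]

lemma bal_balanced {n : ℕ} (s : Bool) (f : (Fin n → Bool) → ℝ) : ∑ z, bal s f z = 0 := by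
  rw [sum_cons]
  have : ∀ b : Bool, ∑ y : Fin n → Bool, bal s f (Fin.cons b y) = sgn (b == s) * ∑ y, f y := by
    intro b
    simp only [bal, Fin.cons_zero, Fin.cons_succ, ← mul_sum]
    congr 1
    exact (twist (b == s)).sum_comp f
  simp_rw [this]
  cases s <;> simp [sgn]

lemma bal_coef_zero {n : ℕ} (s : Bool) (f : (Fin n → Bool) → ℝ) :
    coef (bal s f) {0} = sgn s * coef f ∅ := by
  rw [coef, coef, sum_cons]
  have : ∀ b : Bool, ∑ y : Fin n → Bool, bal s f (Fin.cons b y) * chi {0} (Fin.cons b y : Fin (n+1) → Bool)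
      = sgn s * ∑ y, f y := by
    intro b
    simp only [bal, chi, prod_singleton, Fin.cons_zero, Fin.cons_succ, sgn_beq]
    simp_rw [mul_right_comm _ (f _), ← mul_sum]
    have h : sgn b * sgn s * sgn b = sgn s := by cases b <;> cases s <;> simp [sgn]
    rw [h]; congr 1; exact (twist (b == s)).sum_comp f
  simp_rw [this]
  simp [chi, pow_succ]
  ring

lemma bal_coef_succ {n : ℕ} (s : Bool) (f : (Fin n → Bool) → ℝ) (i : Fin n) :
    coef (bal s f) {i.succ} = coef f {i} := by
  rw [coef, coef, sum_cons]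
  have : ∀ b : Bool, ∑ y : Fin n → Bool,
      bal s f (Fin.cons b y) * chi {i.succ} (Fin.cons b y : Fin (n+1) → Bool)
      = ∑ y, f y * chi {i} y := by
    intro b
    rw [← (twist (b == s)).sum_comp (fun y => f y * chi {i} y)]
    refine sum_congr rfl fun y _ => ?_
    simp only [bal, chi, prod_singleton, Fin.cons_zero, Fin.cons_succ, twist, Equiv.coe_fn_mk]
    rw [sgn_beq (y i) (b == s)]
    ring
  simp_rw [this]
  simp [pow_succ]
  ring

/-- A balanced function with at least the same linear sum and degree larger by at most one. -/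
lemma exists_balanced {n D : ℕ} {f : (Fin n → Bool) → ℝ} (hf : IsBoolean f) (hD : f ∈ low n D) :
    ∃ g : (Fin (n + 1) → Bool) → ℝ,
      IsBoolean g ∧ ∑ z, g z = 0 ∧ g ∈ low (n + 1) (D + 1) ∧ linSum f ≤ linSum g := by
  classical
  refine ⟨bal (decide (0 ≤ coef f ∅)) f, bal_boolean _ hf, bal_balanced _ _, bal_low _ hD, ?_⟩
  rw [linSum, linSum, Fin.sum_univ_succ, bal_coef_zero]
  simp_rw [bal_coef_succ]
  have : 0 ≤ sgn (decide (0 ≤ coef f ∅)) * coef f ∅ := by
    by_cases h : 0 ≤ coef f ∅
    · simp [sgn, h]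
    · simp [sgn, h]; linarith [not_le.mp h]
  linarith

/-- The one-variable function `x`. -/
lemma exists_base : ∃ g : (Fin 1 → Bool) → ℝ,
    IsBoolean g ∧ ∑ z, g z = 0 ∧ g ∈ low 1 1 ∧ linSum g = 1 := by
  refine ⟨chi {0}, ?_, ?_, chi_mem _ (by simp), ?_⟩
  · intro x; cases h : x 0 <;> simp [chi, sgn, h]
  · rw [sum_chi]; simp
  · simp [linSum, coef, sum_chi_mul]

/-- Amplification: a function of degree at most `d` gives, for each `k`, a balanced function of
degree less than `2 d^k` with linear sum at least the `k`th power. -/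
lemma amplify {n d : ℕ} {f : (Fin n → Bool) → ℝ} (hf : IsBoolean f) (hd : deg f ≤ d)
    (h2 : 2 ≤ d) (h0 : 0 ≤ linSum f) (k : ℕ) :
    ∃ (m D : ℕ) (g : (Fin m → Bool) → ℝ), 1 ≤ m ∧ IsBoolean g ∧ ∑ z, g z = 0 ∧ g ∈ low m D ∧
      D + 1 ≤ 2 * d ^ k ∧ linSum f ^ k ≤ linSum g := by
  induction k with
  | zero =>
    obtain ⟨g, h1, h2', h3, h4⟩ := exists_base
    exact ⟨1, 1, g, le_rfl, h1, h2', h3, by simp, by simp [h4]⟩
  | succ k ih =>
    obtain ⟨m, D, g, _, hg, hbal, hlow, hD, hS⟩ := ih
    have hc := comp_low hg hd hlow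
    obtain ⟨g', h1, h2', h3, h4⟩ := exists_balanced (comp_boolean (g := g) hf) hc
    refine ⟨n * m + 1, d * D + 1, g', by omega, h1, h2', h3, ?_, ?_⟩
    · calc d * D + 1 + 1 ≤ d * (D + 1) := by rw [mul_add]; omega
        _ ≤ d * (2 * d ^ k) := Nat.mul_le_mul_left d hD
        _ = _ := by ring
    · rw [comp_linSum f hg hbal] at h4
      rw [pow_succ']
      exact le_trans (mul_le_mul_of_nonneg_left hS h0) h4

/-! ### The linear sum is at most the degree -/

/-- Flip one coordinate. -/
def flipAt {n : ℕ} (i : Fin n) : (Fin n → Bool) ≃ (Fin n → Bool) where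
  toFun x := Function.update x i (!x i)
  invFun x := Function.update x i (!x i)
  left_inv x := by simp
  right_inv x := by simp

lemma chi_flip {n : ℕ} (i : Fin n) (S : Finset (Fin n)) (x : Fin n → Bool) :
    chi S (flipAt i x) = (if i ∈ S then -1 else 1) * chi S x := by
  split
  · next h =>
    simp only [chi]
    rw [← mul_prod_erase S _ h, ← mul_prod_erase S _ h]
    have : ∏ k ∈ S.erase i, sgn (flipAt i x k) = ∏ k ∈ S.erase i, sgn (x k) :=
      prod_congr rfl fun k hk => by simp [flipAt, (mem_erase.mp hk).1]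
    rw [this]
    cases hx : x i <;> simp [flipAt, sgn, hx]
  · next h =>
    rw [one_mul]
    exact prod_congr rfl fun k hk => by
      simp [flipAt, show k ≠ i from fun e => h (e ▸ hk)]

lemma coef_singleton_le {n : ℕ} {f : (Fin n → Bool) → ℝ} (hf : IsBoolean f) (i : Fin n) :
    coef f {i} ≤ ∑ S ∈ univ.filter (fun S => i ∈ S), coef f S ^ 2 := by
  classical
  have hflip : ∀ x, f x - f (flipAt i x) =
      ∑ S ∈ univ.filter (fun S => i ∈ S), 2 * coef f S * chi S x := by
    intro x
    rw [expansion f x, expansion f (flipAt i x), ← sum_sub_distrib, sum_filter]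
    refine sum_congr rfl fun S _ => ?_
    rw [chi_flip]; split <;> ring
  have hsq : ∑ x, (f x - f (flipAt i x)) ^ 2
      = 4 * 2 ^ n * ∑ S ∈ univ.filter (fun S => i ∈ S), coef f S ^ 2 := by
    simp_rw [hflip, sq, sum_mul_sum]
    rw [sum_comm, mul_sum]
    refine sum_congr rfl fun S hS => ?_
    rw [sum_comm]
    have : ∀ T, ∑ x, 2 * coef f S * chi S x * (2 * coef f T * chi T x)
        = 4 * coef f S * coef f T * ∑ x, chi S x * chi T x := by
      intro T; rw [mul_sum]; exact sum_congr rfl fun x _ => by ring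
    simp_rw [this, sum_chi_mul]
    simp only [mul_ite, mul_zero, sum_ite_eq, hS, if_true]
    ring
  have hlin : 2 * (2 ^ n * coef f {i}) = ∑ x, (f x - f (flipAt i x)) * chi {i} x := by
    have h : ∑ x, f (flipAt i x) * chi {i} x = - ∑ x, f x * chi {i} x := by
      rw [← sum_neg_distrib, ← (flipAt i).sum_comp (fun x => -(f x * chi {i} x))]
      refine sum_congr rfl fun x _ => ?_
      rw [chi_flip]; simp
    simp only [sub_mul, sum_sub_distrib, h, coef]
    field_simp
    ring
  have hpt : ∀ x, (f x - f (flipAt i x)) * chi {i} x ≤ (f x - f (flipAt i x)) ^ 2 / 2 := by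
    intro x
    rcases hf x with h | h <;> rcases hf (flipAt i x) with h' | h' <;>
      cases hx : x i <;> simp [chi, sgn, h, h', hx] <;> norm_num
  have := sum_le_sum (s := univ) fun x _ => hpt x
  rw [← hlin, ← sum_div, hsq] at this
  have hp : (0 : ℝ) < 2 ^ n := by positivity
  nlinarith

lemma sum_coef_sq {n : ℕ} {f : (Fin n → Bool) → ℝ} (hf : IsBoolean f) :
    ∑ S, coef f S ^ 2 = 1 := by
  have h : ∑ S, coef f S ^ 2 * 2 ^ n = ∑ x, f x * f x := by
    conv_rhs => enter [2, x]; arg 2; rw [expansion f x]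
    simp_rw [mul_sum]
    rw [sum_comm]
    refine sum_congr rfl fun S _ => ?_
    simp only [coef, mul_left_comm (f _), ← mul_sum]
    field_simp
  have h1 : ∀ x, f x * f x = 1 := fun x => by rcases hf x with e | e <;> simp [e]
  simp only [h1, sum_const, card_univ, nsmul_eq_mul, mul_one, Fintype.card_fun,
    Fintype.card_bool, Fintype.card_fin] at h
  rw [← sum_mul] at h
  push_cast at h
  exact mul_right_cancel₀ (by positivity : (2 : ℝ) ^ n ≠ 0) (by rw [one_mul]; exact h)

/-- The bound of Nisan and Szegedy. -/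
lemma linSum_le_deg {n : ℕ} {f : (Fin n → Bool) → ℝ} (hf : IsBoolean f) :
    linSum f ≤ deg f := by
  classical
  refine (sum_le_sum fun i _ => coef_singleton_le hf i).trans ?_
  simp_rw [sum_filter]
  rw [sum_comm]
  calc ∑ S : Finset (Fin n), ∑ i : Fin n, (if i ∈ S then coef f S ^ 2 else 0)
      = ∑ S : Finset (Fin n), (S.card : ℝ) * coef f S ^ 2 := by
        refine sum_congr rfl fun S _ => ?_
        simp [sum_ite_mem]
    _ ≤ ∑ S : Finset (Fin n), (deg f : ℝ) * coef f S ^ 2 := by
        refine sum_le_sum fun S _ => ?_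
        by_cases hc : coef f S = 0
        · simp [hc]
        · refine mul_le_mul_of_nonneg_right ?_ (sq_nonneg _)
          exact_mod_cast (by unfold deg; exact Finset.le_sup (f := card) (by simp [hc]) : S.card ≤ deg f)
    _ = deg f := by rw [← mul_sum, sum_coef_sq hf, mul_one]

end Vale.Agent.P047
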