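import Vale.Agent.P047.Approx

/-!
A Boolean function whose linear sum exceeds the square root of its degree.
-/

namespace Vale.Agent.P047

open Finset Filter Topology Polynomial

/-- The quantised and clipped block sum. -/
def clip (ν T : ℤ) {m : ℕ} (x : Fin m → Bool) : ℤ := max (-T) (min T (isum x / ν))

lemma clip_abs {ν T : ℤ} (hT : 0 ≤ T) {m : ℕ} (x : Fin m → Bool) : |clip ν T x| ≤ T := by
  unfold clip; rw [abs_le]
  exact ⟨le_max_left _ _, max_le (by omega) (min_le_left _ _)⟩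

lemma clip_err {ν T : ℤ} (hν : 0 < ν) (hT : 0 < T) {m : ℕ} :
    ∑ x : Fin m → Bool, |wsum x - (ν : ℝ) * (clip ν T x : ℝ)|
      ≤ ((ν : ℝ) + 3 * (m : ℝ) ^ 2 / ((ν : ℝ) * T) ^ 3) * 2 ^ m := by
  have hP : (0 : ℝ) < ((ν : ℝ) * T) ^ 3 := by
    have h1 : (0 : ℝ) < ν := by exact_mod_cast hν
    have h2 : (0 : ℝ) < T := by exact_mod_cast hT
    positivity
  have hpt : ∀ x : Fin m → Bool,
      |wsum x - (ν : ℝ) * (clip ν T x : ℝ)| ≤ (ν : ℝ) + wsum x ^ 4 / ((ν : ℝ) * T) ^ 3 := by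
    intro x
    have hν' : (0 : ℝ) ≤ ν := by exact_mod_cast hν.le
    have h0 : 0 ≤ wsum x ^ 4 / ((ν : ℝ) * T) ^ 3 := by positivity
    have hdiv := Int.mul_ediv_add_emod (isum x) ν
    have hlo := Int.emod_nonneg (isum x) hν.ne'
    have hhi := Int.emod_lt_of_pos (isum x) hν
    have hbig : ν * T ≤ |isum x| → ((|isum x| : ℤ) : ℝ) ≤ wsum x ^ 4 / ((ν : ℝ) * T) ^ 3 := by
      intro hw
      have hw' : (ν : ℝ) * T ≤ |(isum x : ℝ)| := by exact_mod_cast hw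
      rw [wsum_eq, le_div_iff₀ hP, Int.cast_abs]
      calc |(isum x : ℝ)| * ((ν : ℝ) * T) ^ 3 ≤ |(isum x : ℝ)| * |(isum x : ℝ)| ^ 3 := by
            have : (0 : ℝ) ≤ (ν : ℝ) * T := mul_nonneg hν' (by exact_mod_cast hT.le)
            gcongr
        _ = (isum x : ℝ) ^ 4 := by rw [← pow_succ', Even.pow_abs (by decide)]
    rcases lt_trichotomy (isum x / ν) (-T - 1 + 1) with h | h | h
    · have hc : clip ν T x = -T := by unfold clip; omega
      have h2 : isum x ≤ ν * (-T) := by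
        have := mul_le_mul_of_nonneg_left (show isum x / ν + 1 ≤ -T by omega) hν.le
        nlinarith
      have hn : |isum x| = -isum x := abs_of_nonpos (by nlinarith)
      have h3 := hbig (by rw [hn]; nlinarith)
      have h4 : (|isum x - ν * clip ν T x| : ℤ) ≤ |isum x| := by
        rw [hc, hn, abs_le]; constructor <;> nlinarith
      have h5 : |wsum x - (ν : ℝ) * (clip ν T x : ℝ)| ≤ ((|isum x| : ℤ) : ℝ) := by
        rw [wsum_eq]; exact_mod_cast h4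
      linarith
    all_goals rcases le_or_gt (isum x / ν) T with h' | h'
    all_goals first
      | (have hc : clip ν T x = isum x / ν := by unfold clip; omega
         have h4 : (|isum x - ν * clip ν T x| : ℤ) ≤ ν := by
           rw [hc, abs_le]; constructor <;> linarith
         have h5 : |wsum x - (ν : ℝ) * (clip ν T x : ℝ)| ≤ (ν : ℝ) := by
           rw [wsum_eq]; exact_mod_cast h4
         linarith)
      | (have hc : clip ν T x = T := by unfold clip; omega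
         have h2 : ν * T ≤ isum x := by nlinarith [mul_le_mul_of_nonneg_left h'.le hν.le]
         have hn : |isum x| = isum x := abs_of_nonneg (by nlinarith)
         have h3 := hbig (by rw [hn]; exact h2)
         have h4 : (|isum x - ν * clip ν T x| : ℤ) ≤ |isum x| := by
           rw [hc, hn, abs_le]; constructor <;> nlinarith
         have h5 : |wsum x - (ν : ℝ) * (clip ν T x : ℝ)| ≤ ((|isum x| : ℤ) : ℝ) := by
           rw [wsum_eq]; exact_mod_cast h4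
         linarith)
  refine (sum_le_sum fun x _ => hpt x).trans ?_
  rw [sum_add_distrib, ← sum_div, add_mul, div_mul_eq_mul_div]
  refine add_le_add (by simp; linarith) ?_
  gcongr
  exact moment_four m

/-- The properties carried through the two levels of products. -/
def Props {n q : ℕ} {z : (Fin n → Bool) → ℤ} (G : Gad n q z) (ν : ℤ) (A : ℕ) (p E : ℝ) (b : ℤ) :
    Prop :=
  (∀ l, G.DiffLE l A) ∧ G.BadLE p ∧ (∀ l, |G.phi l| ≤ b) ∧ (∀ x, |z x| ≤ b) ∧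
    ∑ x, |wsum x - (ν : ℝ) * (z x : ℝ)| ≤ E * 2 ^ n

lemma err_product {n₁ n₂ : ℕ} (ν : ℤ) (z₁ : (Fin n₁ → Bool) → ℤ) (z₂ : (Fin n₂ → Bool) → ℤ)
    {E₁ E₂ : ℝ} (h₁ : ∑ x, |wsum x - (ν : ℝ) * (z₁ x : ℝ)| ≤ E₁ * 2 ^ n₁)
    (h₂ : ∑ x, |wsum x - (ν : ℝ) * (z₂ x : ℝ)| ≤ E₂ * 2 ^ n₂) :
    ∑ z : Fin (n₁ + n₂) → Bool, |wsum z
        - (ν : ℝ) * ((z₁ (z ∘ Fin.castAdd n₂) + z₂ (z ∘ Fin.natAdd n₁) : ℤ) : ℝ)|
      ≤ (E₁ + E₂) * 2 ^ (n₁ + n₂) := by
  refine (sum_le_sum (g := fun z : Fin (n₁ + n₂) → Bool =>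
      |wsum (z ∘ Fin.castAdd n₂) - (ν : ℝ) * (z₁ (z ∘ Fin.castAdd n₂) : ℝ)|
      + |wsum (z ∘ Fin.natAdd n₁) - (ν : ℝ) * (z₂ (z ∘ Fin.natAdd n₁) : ℝ)|) fun z _ => ?_).trans ?_
  · refine le_trans (le_of_eq ?_) (abs_add_le _ _)
    rw [wsum_append]; push_cast; ring_nf
  rw [sum_split (fun u v => |wsum u - (ν : ℝ) * (z₁ u : ℝ)| + |wsum v - (ν : ℝ) * (z₂ v : ℝ)|)]
  simp only [sum_add_distrib, sum_const, card_univ, Fintype.card_fun, Fintype.card_bool,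
    Fintype.card_fin, nsmul_eq_mul]
  push_cast
  rw [← mul_sum]
  calc (2 : ℝ) ^ n₂ * ∑ x, |wsum x - (ν : ℝ) * (z₁ x : ℝ)|
        + 2 ^ n₁ * ∑ x, |wsum x - (ν : ℝ) * (z₂ x : ℝ)|
      ≤ 2 ^ n₂ * (E₁ * 2 ^ n₁) + 2 ^ n₁ * (E₂ * 2 ^ n₂) := by gcongr
    _ = _ := by rw [pow_add]; ring

/-- A chain of blocks read up to the first exceptional one. -/
lemma exists_chain {m a q : ℕ} [NeZero q] {ν T : ℤ} (hν : 0 < ν) (hT : 0 < T)
    {p : ℝ} (G₀ : Gad m q (clip ν T)) (hd : ∀ l, G₀.Good l → G₀.DiffLE l a) (hp : G₀.BadLE p)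
    (hphi : G₀.phi = clip ν T) : ∀ j : ℕ,
    ∃ (n : ℕ) (z : (Fin n → Bool) → ℤ) (G : Gad n q z), n = (j + 1) * m ∧
      Props G ν (j * a + m) ((j + 1) * p)
        ((j + 1) * ((ν : ℝ) + 3 * (m : ℝ) ^ 2 / ((ν : ℝ) * T) ^ 3)) ((j + 1) * T) := by
  intro j
  induction j with
  | zero =>
    refine ⟨m, _, G₀, by simp, fun l g g' => low_mono (by simp) (any_mem_low _), by simpa using hp,
      fun l => ?_, fun x => ?_, by simpa using clip_err hν hT⟩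
    · rw [hphi]; simpa using clip_abs hT.le l
    · simpa using clip_abs hT.le x
  | succ j ih =>
    obtain ⟨n, z, G', hn, hD, hB, hb, hzb, hE⟩ := ih
    obtain ⟨G, hGd, hGb, -, hGphi⟩ := exists_product G₀ G' G₀.Good (fun _ h => h) (b := m)
      hd (fun l _ g g' => any_mem_low _) hD hp hB
    refine ⟨m + n, _, G, by rw [hn]; ring, fun l g g' => low_mono ?_ (hGd l g g'), ?_, fun l => ?_,
      fun x => ?_, ?_⟩
    · have : (j + 1) * a = j * a + a := Nat.succ_mul j a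
      omega
    · convert hGb using 1; push_cast; ring
    · refine (hGphi T _ (fun l => by rw [hphi]; exact clip_abs hT.le l) hb l).trans (le_of_eq ?_)
      push_cast; ring
    · refine (abs_add_le _ _).trans
        ((add_le_add (clip_abs hT.le _) (hzb _)).trans (le_of_eq ?_))
      push_cast; ring
    · refine (err_product ν _ _ (clip_err hν hT) hE).trans (le_of_eq ?_)
      push_cast; ring

/-- Many independent chains. -/
lemma exists_top {n₀ A q : ℕ} [NeZero q] {ν b : ℤ} {p E : ℝ} {z₀ : (Fin n₀ → Bool) → ℤ}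
    (G₀ : Gad n₀ q z₀) (h : Props G₀ ν A p E b) : ∀ i : ℕ,
    ∃ (n : ℕ) (z : (Fin n → Bool) → ℤ) (G : Gad n q z), n = (i + 1) * n₀ ∧ G.PhiLE n₀ ∧
      Props G ν ((i + 1) * A) ((i + 1) * p) ((i + 1) * E) ((i + 1) * b) := by
  intro i
  obtain ⟨hd, hp, hphi, hz, hE⟩ := h
  induction i with
  | zero =>
    exact ⟨n₀, z₀, G₀, by simp, any_mem_low _, by simpa using hd, by simpa using hp,
      by simpa using hphi, by simpa using hz, by simpa using hE⟩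
  | succ i ih =>
    obtain ⟨n, z, G', hn, hM, hD', hB', hb', hz', hE'⟩ := ih
    obtain ⟨G, hGd, hGb, hGM, hGphi⟩ := exists_product G₀ G' (fun _ => True) (fun _ _ => trivial)
      (b := 0) (fun l _ => hd l) (fun l hl => absurd trivial hl) hD' hp hB'
    refine ⟨n₀ + n, _, G, by rw [hn]; ring, hGM (fun _ => trivial) n₀ (any_mem_low _) hM,
      fun l g g' => low_mono ?_ (hGd l g g'), ?_, fun l => ?_, fun x => ?_, ?_⟩
    · have : (i + 1 + 1) * A = (i + 1) * A + A := Nat.succ_mul _ A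
      omega
    · convert hGb using 1; push_cast; ring
    · refine (hGphi _ _ hphi hb' l).trans (le_of_eq ?_)
      push_cast; ring
    · refine (abs_add_le _ _).trans ((add_le_add (hz _) (hz' _)).trans (le_of_eq ?_))
      push_cast; ring
    · refine (err_product ν _ _ hE hE').trans (le_of_eq ?_)
      push_cast; ring

/-- The base of the decay of the exceptional fraction. -/
noncomputable def rho : ℝ := ((21 : ℝ) / 20) ^ 100 / (11 / 10) ^ 53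

lemma rho_pos : 0 < rho := by unfold rho; positivity

lemma rho_lt_one : rho < 1 := by unfold rho; rw [div_lt_one (by positivity)]; norm_num

/-- The high levels of the cube are a small fraction. -/
lemma high_levels (M : ℕ) :
    ((univ.filter fun S : Finset (Fin (100 * M)) => 53 * M < S.card).card : ℝ)
      ≤ 2 ^ (100 * M) * rho ^ M := by
  have hsum := Fintype.sum_pow_mul_eq_add_pow (Fin (100 * M)) (11 / 10 : ℝ) 1
  simp only [one_pow, mul_one, Fintype.card_fin] at hsum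
  have h1 : ((univ.filter fun S : Finset (Fin (100 * M)) => 53 * M < S.card).card : ℝ)
      * (11 / 10 : ℝ) ^ (53 * M) ≤ (11 / 10 + 1 : ℝ) ^ (100 * M) := by
    rw [← hsum, ← nsmul_eq_mul, ← sum_const]
    refine (sum_le_sum fun S hS => ?_).trans
      (sum_le_sum_of_subset_of_nonneg (filter_subset _ _) fun S _ _ => by positivity)
    exact pow_le_pow_right₀ (by norm_num) (mem_filter.mp hS).2.le
  rw [← le_div_iff₀ (by positivity : (0 : ℝ) < (11 / 10 : ℝ) ^ (53 * M))] at h1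
  refine h1.trans (le_of_eq ?_)
  unfold rho
  rw [show (11 / 10 + 1 : ℝ) = 2 * (21 / 20) by norm_num, mul_pow, div_pow ((21 / 20 : ℝ) ^ 100),
    ← pow_mul, ← pow_mul, mul_div_assoc]

lemma two_rho : 1 ≤ (2 : ℝ) ^ 100 * rho := by unfold rho; norm_num

/-- Counting for one block. -/
lemma block_count {M Dh : ℕ} (h : Dh ≤ 2 ^ (100 * M)) :
    2 * (Dh * (2 * (100 * M) + 8) + 1) + 1 ≤ 2 ^ (2 * (100 * M) + 8) := by
  obtain ⟨a, ha⟩ : ∃ a, a = 100 * M := ⟨_, rfl⟩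
  rw [← ha] at h ⊢
  have h2 : 2 * a + 8 ≤ 2 ^ (a + 4) := by
    have := a.lt_two_pow_self
    rw [pow_add]; omega
  have h3 : Dh * (2 * a + 8) ≤ 2 ^ a * 2 ^ (a + 4) := Nat.mul_le_mul h h2
  rw [← pow_add] at h3
  have h4 : 2 ^ (2 * a + 8) = 2 ^ (a + (a + 4)) * 16 := by
    rw [show 2 * a + 8 = a + (a + 4) + 4 by omega, pow_add _ (a + (a + 4)) 4]; norm_num
  have h5 := Nat.one_le_two_pow (n := a + (a + 4))
  omega

/-- The arithmetic of the exceptional fraction of one block. -/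
lemma block_fraction {M Q L s A : ℝ} (hM : 1 ≤ M) (hQ : 1 ≤ Q) (hL0 : 0 ≤ L) (hL : L ≤ 300 * M)
    (hs0 : 0 ≤ s) (hs : s + 1 ≤ A * (300 * M)) :
    (2 * (100 * M) + 1) * (2 * (4 * (Q * L) ^ 2) * s + s + 1) * M
      ≤ 10 * Q ^ 2 * 300 ^ 4 * M ^ 5 * A := by
  have h1 : (Q * L) ^ 2 ≤ (Q * (300 * M)) ^ 2 :=
    pow_le_pow_left₀ (by positivity) (mul_le_mul_of_nonneg_left hL (by linarith)) 2
  have h2 : 1 ≤ (Q * (300 * M)) ^ 2 := by
    have : 1 ≤ Q * (300 * M) := one_le_mul_of_one_le_of_one_le hQ (by linarith)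
    exact one_le_pow₀ this
  have h3 : 2 * (4 * (Q * L) ^ 2) * s + s + 1 ≤ 10 * (Q * (300 * M)) ^ 2 * (s + 1) := by
    nlinarith [mul_le_mul_of_nonneg_right h1 hs0]
  calc (2 * (100 * M) + 1) * (2 * (4 * (Q * L) ^ 2) * s + s + 1) * M
      ≤ 300 * M * (10 * (Q * (300 * M)) ^ 2 * (A * (300 * M))) * M := by
        gcongr
        · linarith
        · exact h3.trans (by gcongr)
    _ = _ := by ring

/-- One block with a small exceptional fraction. -/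
lemma exists_small_block {M q : ℕ} [NeZero q] (hM : 1 ≤ M) (φ : (Fin (100 * M) → Bool) → ℤ)
    (hφ : ∀ x y, isum x = isum y → φ x = φ y) :
    ∃ (G : Gad (100 * M) q φ) (p : ℝ), 0 ≤ p ∧ (∀ l, G.Good l → G.DiffLE l (53 * M)) ∧ G.BadLE p ∧
      G.phi = φ ∧ p * M ≤ 10 * (q : ℝ) ^ 2 * 300 ^ 4 * ((M : ℝ) ^ 5 * rho ^ M) := by
  obtain ⟨Dh, hDh⟩ : ∃ Dh : ℕ,
      Dh = (univ.filter fun S : Finset (Fin (100 * M)) => 53 * M < S.card).card := ⟨_, rfl⟩
  obtain ⟨L, hL⟩ : ∃ L : ℕ, L = 2 * (100 * M) + 8 := ⟨_, rfl⟩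
  obtain ⟨s, hs⟩ : ∃ s : ℕ, s = Dh * L + 1 := ⟨_, rfl⟩
  have hDh2 : Dh ≤ 2 ^ (100 * M) := by
    rw [hDh]; exact (card_filter_le _ _).trans (by simp)
  have hs2 : 2 * s + 1 ≤ 2 ^ L := by rw [hs, hL]; exact block_count hDh2
  obtain ⟨G, hd, hb, hphi⟩ := exists_block (m := 100 * M) (a := 53 * M) (q := q) (L := L) (s := s)
    (by omega) (by omega) (by
      rw [← hDh]
      calc (2 * s + 1) ^ Dh ≤ (2 ^ L) ^ Dh := Nat.pow_le_pow_left hs2 _
        _ = 2 ^ (Dh * L) := by rw [← pow_mul, mul_comm]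
        _ < 2 ^ s := Nat.pow_lt_pow_right (by norm_num) (by omega))
    φ hφ
  refine ⟨G, _, ?_, hd, hb, hphi, ?_⟩
  · positivity
  have hMr : (1 : ℝ) ≤ M := by exact_mod_cast hM
  have hqr : (1 : ℝ) ≤ q := by exact_mod_cast Nat.one_le_iff_ne_zero.mpr (NeZero.ne q)
  have hLr : (L : ℝ) + 2 ≤ 300 * M := by rw [hL]; push_cast; linarith
  have h1 : (Dh : ℝ) ≤ 2 ^ (100 * M) * rho ^ M := by rw [hDh]; exact high_levels M
  have h2 : 1 ≤ (2 : ℝ) ^ (100 * M) * rho ^ M := by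
    rw [pow_mul, ← mul_pow]; exact one_le_pow₀ two_rho
  have hs1 : (s : ℝ) + 1 ≤ 2 ^ (100 * M) * rho ^ M * (300 * M) := by
    have : (Dh : ℝ) * L ≤ 2 ^ (100 * M) * rho ^ M * L :=
      mul_le_mul_of_nonneg_right h1 (Nat.cast_nonneg _)
    rw [hs]; push_cast
    nlinarith
  have h3 := block_fraction hMr hqr (Nat.cast_nonneg L) (by linarith) (Nat.cast_nonneg s) hs1
  rw [div_mul_eq_mul_div, div_le_iff₀ (by positivity : (0 : ℝ) < 2 ^ (100 * M))]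
  push_cast
  refine h3.trans (le_of_eq ?_)
  ring

/-- The block length can be taken so large that the exceptional points do not matter. -/
lemma exists_params (k : ℕ) (hk : 1 ≤ k) (q : ℕ) :
    ∃ ν M : ℕ, 1 ≤ ν ∧ 1 ≤ M ∧ M = (1000 * k ^ 3 * ν) ^ 2 ∧
      10 * (q : ℝ) ^ 2 * 300 ^ 4 * ((M : ℝ) ^ 5 * rho ^ M) * (10 ^ 7 * ((k : ℝ) ^ 6) ^ 2)
        < 1 / 1000 := by
  have h1 := tendsto_pow_const_mul_const_pow_of_abs_lt_one 5
    (show |rho| < 1 by rw [abs_of_pos rho_pos]; exact rho_lt_one)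
  have h2 := (h1.const_mul (10 * (q : ℝ) ^ 2 * 300 ^ 4)).mul_const (10 ^ 7 * ((k : ℝ) ^ 6) ^ 2)
  rw [mul_zero, zero_mul] at h2
  obtain ⟨M₀, hM₀⟩ := eventually_atTop.mp (h2.eventually (eventually_lt_nhds
    (show (0 : ℝ) < 1 / 1000 by norm_num)))
  obtain ⟨ν, hν⟩ : ∃ ν : ℕ, ν = M₀ + 1 := ⟨_, rfl⟩
  obtain ⟨M, hM⟩ : ∃ M : ℕ, M = (1000 * k ^ 3 * ν) ^ 2 := ⟨_, rfl⟩
  have hνM : ν ≤ M := by
    rw [hM]
    have h3 : 1 ≤ k ^ 3 := Nat.one_le_pow _ _ hk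
    exact (Nat.le_mul_of_pos_left ν (by omega)).trans (Nat.le_self_pow two_ne_zero _)
  exact ⟨ν, M, by omega, by omega, hM, hM₀ M (by omega)⟩

/-- A rational polynomial near the sign on the integers of `[-R, R]`. -/
lemma exists_scaled {k D : ℕ} (hk : 1 ≤ k) (hD : 1 ≤ D) (hkD : k ^ 6 = 10 * D)
    (hbig : 48 * (250000000 : ℝ) ^ 5 * 500 * 10 ^ 4 ≤ (k : ℝ) ^ 4) {R : ℤ} (hR : 0 < R) :
    ∃ P : ℚ[X], P.natDegree ≤ 2 * D + 1 ∧ (∀ v : ℤ, |v| ≤ R → |aeval (v : ℝ) P| ≤ 1) ∧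
      ∀ ν : ℝ, 0 ≤ ν → ∀ v : ℤ, |v| ≤ R →
        (1 - 3 / 500) * |ν * v| - 2 * ν * R * (1 / (500 * (500 * (k : ℝ) ^ 4)))
          ≤ aeval (v : ℝ) P * (ν * v) := by
  have hkr : (1 : ℝ) ≤ k := by exact_mod_cast hk
  have hk4 : (1 : ℝ) ≤ (k : ℝ) ^ 4 := one_le_pow₀ hkr
  obtain ⟨w, hw⟩ : ∃ w : ℝ, w = 1 / (500 * (500 * (k : ℝ) ^ 4)) := ⟨_, rfl⟩
  have hw0 : 0 < w := by rw [hw]; positivity
  obtain ⟨h, hdeg, hb, hsgn⟩ := exists_sign_approx (j := 250000000 * k ^ 4) (D := D)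
    (w := w) (ε := 1 / 500)
    (Nat.mul_pos (by norm_num) (pow_pos hk 4)) hD hw0
    (by rw [hw, div_le_one (by positivity)]; nlinarith)
    (le_of_eq (by rw [hw]; push_cast; field_simp; norm_num))
    (by
      push_cast
      have e : (D : ℝ) = (k : ℝ) ^ 6 / 10 := by
        have : ((k : ℝ)) ^ 6 = 10 * (D : ℝ) := by exact_mod_cast hkD
        linarith
      rw [e]
      calc 48 * (250000000 * (k : ℝ) ^ 4) ^ 5
          = 1 / 500 * (1 / 10) ^ 4 * ((k : ℝ) ^ 20 * (48 * 250000000 ^ 5 * 500 * 10 ^ 4)) := by ring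
        _ ≤ 1 / 500 * (1 / 10) ^ 4 * ((k : ℝ) ^ 20 * (k : ℝ) ^ 4) := by gcongr
        _ = _ := by ring)
  rw [← hw]
  have hRr : (0 : ℝ) < R := by exact_mod_cast hR
  refine ⟨h.comp (Polynomial.C (1 / (R : ℚ)) * Polynomial.X), ?_, ?_⟩
  · refine natDegree_comp_le.trans ?_
    calc h.natDegree * (Polynomial.C (1 / (R : ℚ)) * Polynomial.X).natDegree
        ≤ (2 * D + 1) * 1 :=
          Nat.mul_le_mul hdeg ((natDegree_C_mul_le _ _).trans natDegree_X_le)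
      _ = 2 * D + 1 := mul_one _
  have hval : ∀ v : ℤ, aeval (v : ℝ) (h.comp (Polynomial.C (1 / (R : ℚ)) * Polynomial.X))
      = aeval ((v : ℝ) / R) h := by
    intro v
    simp only [aeval_comp, map_mul, aeval_C, aeval_X, eq_ratCast]
    congr 1; push_cast; ring
  have hu : ∀ v : ℤ, |v| ≤ R → ((v : ℝ) / R) ∈ Set.Icc (-1 : ℝ) 1 := by
    intro v hv
    have : |(v : ℝ)| ≤ R := by exact_mod_cast hv
    rw [Set.mem_Icc, ← abs_le, abs_div, abs_of_pos hRr, div_le_one hRr]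
    exact this
  refine ⟨fun v hv => by rw [hval]; exact hb _ (hu v hv), fun ν hν v hv => ?_⟩
  have hu1 := hu v hv
  rw [hval]
  obtain ⟨u, hu'⟩ : ∃ u : ℝ, u = (v : ℝ) / R := ⟨_, rfl⟩
  rw [← hu'] at hu1 ⊢
  obtain ⟨a, ha⟩ : ∃ a : ℝ, a = aeval u h := ⟨_, rfl⟩
  rw [← ha]
  have hνR : (0 : ℝ) ≤ ν * R := mul_nonneg hν hRr.le
  have e : ν * (v : ℝ) = ν * R * u := by rw [hu']; field_simp
  rw [e, abs_mul, abs_of_nonneg hνR]
  rcases le_or_gt w |u| with hw' | hw'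
  · have h1 := hsgn _ hu1 hw'
    rw [← ha] at h1
    have h2 : 0 ≤ ν * R * w := mul_nonneg hνR hw0.le
    linarith [mul_le_mul_of_nonneg_left h1 hνR]
  · have h1 : -|u| ≤ a * u := by
      have h3 := neg_abs_le (a * u)
      rw [abs_mul] at h3
      have h4 := mul_le_mul_of_nonneg_right (hb _ hu1) (abs_nonneg u)
      rw [← ha] at h4
      linarith
    linarith [mul_le_mul_of_nonneg_left h1 hνR, mul_le_mul_of_nonneg_left hw'.le hνR,
      mul_nonneg hνR (abs_nonneg u)]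

/-- Values of a rational polynomial over a common denominator. -/
lemma exists_table (P : ℚ[X]) (R : ℤ) (hP : ∀ v : ℤ, |v| ≤ R → |aeval (v : ℝ) P| ≤ 1) :
    ∃ (q : ℕ) (Tv : ℤ → ℕ), 0 < q ∧
      ∀ v : ℤ, |v| ≤ R → Tv v ≤ q ∧ aeval (v : ℝ) P = 2 * (Tv v : ℝ) / q - 1 := by
  obtain ⟨den, hden⟩ : ∃ den : ℕ,
      den = ∏ v ∈ Finset.Icc (-R) R, (P.eval (v : ℚ)).den := ⟨_, rfl⟩
  have hden0 : 0 < den := by rw [hden]; exact prod_pos fun v _ => Rat.den_pos _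
  refine ⟨2 * den,
    fun v => ((P.eval (v : ℚ)).num * ((den / (P.eval (v : ℚ)).den : ℕ) : ℤ) + den).toNat,
    by omega, fun v hv => ?_⟩
  obtain ⟨r, hr⟩ : ∃ r : ℚ, r = P.eval (v : ℚ) := ⟨_, rfl⟩
  have hrv : aeval (v : ℝ) P = (r : ℝ) := by
    have h := Polynomial.aeval_algebraMap_apply ℝ (v : ℚ) P
    rw [eq_ratCast, eq_ratCast, Rat.cast_intCast, coe_aeval_eq_eval, ← hr] at h
    exact h
  have hdvd : r.den ∣ den := by
    rw [hden, hr]
    exact dvd_prod_of_mem (fun v : ℤ => (P.eval (v : ℚ)).den) (mem_Icc.mpr (abs_le.mp hv))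
  have hv1 := abs_le.mp (hP v hv)
  rw [hrv] at hv1 ⊢
  simp only [← hr]
  obtain ⟨e, he⟩ := hdvd
  have hde : den / r.den = e := by rw [he]; exact Nat.mul_div_cancel_left _ r.den_pos
  rw [hde]
  have hval : ((r.num * (e : ℤ) + den : ℤ) : ℝ) = ((r : ℝ) + 1) * den := by
    rw [Rat.cast_def, he]
    have : (r.den : ℝ) ≠ 0 := by exact_mod_cast r.den_ne_zero
    push_cast; field_simp
  have hdr : (0 : ℝ) < den := by exact_mod_cast hden0
  have hpos : (0 : ℤ) ≤ r.num * (e : ℤ) + den := by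
    have : (0 : ℝ) ≤ ((r.num * (e : ℤ) + den : ℤ) : ℝ) := by
      rw [hval]; exact mul_nonneg (by linarith) hdr.le
    exact_mod_cast this
  have hTval : (((r.num * (e : ℤ) + den).toNat : ℕ) : ℝ) = ((r : ℝ) + 1) * den := by
    rw [← hval, ← Int.cast_natCast, Int.toNat_of_nonneg hpos]
  refine ⟨?_, ?_⟩
  · have : (((r.num * (e : ℤ) + den).toNat : ℕ) : ℝ) ≤ ((2 * den : ℕ) : ℝ) := by
      rw [hTval]; push_cast; nlinarith
    exact_mod_cast this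
  · rw [hTval]; push_cast; field_simp; ring

/-- The correlation of the rounded sum with the sum. -/
lemma corr_lower {n : ℕ} (c : (Fin n → Bool) → ℝ) (z : (Fin n → Bool) → ℤ) {ν S E L : ℝ}
    (hc : ∀ x, |c x| ≤ 1)
    (hs : ∀ x, (1 - 3 / 500) * |ν * (z x : ℝ)| - S ≤ c x * (ν * (z x : ℝ)))
    (hE : ∑ x, |wsum x - ν * (z x : ℝ)| ≤ E * 2 ^ n) (hL : L * 2 ^ n ≤ ∑ x, |wsum (n := n) x|) :
    ((1 - 3 / 500) * L - 2 * E - S) * 2 ^ n ≤ ∑ x, c x * wsum x := by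
  have hpt : ∀ x, (1 - 3 / 500) * |wsum x| - 2 * |wsum x - ν * (z x : ℝ)| - S ≤ c x * wsum x := by
    intro x
    have hs' := hs x
    have hc' := mul_le_mul_of_nonneg_right (hc x) (abs_nonneg (wsum x - ν * (z x : ℝ)))
    have h1 := neg_abs_le (c x * (wsum x - ν * (z x : ℝ)))
    rw [abs_mul] at h1
    have h2 : |wsum x| ≤ |ν * (z x : ℝ)| + |wsum x - ν * (z x : ℝ)| := by
      calc |wsum x| = |ν * (z x : ℝ) + (wsum x - ν * (z x : ℝ))| := by ring_nf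
        _ ≤ _ := abs_add_le _ _
    linarith [abs_nonneg (wsum x - ν * (z x : ℝ))]
  refine le_trans ?_ (sum_le_sum fun x _ => hpt x)
  simp only [sum_sub_distrib, ← mul_sum, sum_const, card_univ, Fintype.card_fun,
    Fintype.card_bool, Fintype.card_fin, nsmul_eq_mul]
  push_cast
  nlinarith

/-- The arithmetic of the quantisation error. -/
lemma error_bound {k ν : ℝ} (hk : 1 ≤ k) (hν : 1 ≤ ν) :
    k ^ 6 * (100 * (ν + 3 * (100 * (1000 * k ^ 3 * ν) ^ 2) ^ 2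
      / (ν * (25 * k * (10000 * k ^ 3))) ^ 3)) ≤ 0.003 * (10 * k ^ 3 * (10000 * k ^ 3 * ν)) := by
  have e : 3 * (100 * (1000 * k ^ 3 * ν) ^ 2) ^ 2 / (ν * (25 * k * (10000 * k ^ 3))) ^ 3
      = 30000 * ν / 15625 := by
    field_simp; ring
  rw [e]
  have : 0 ≤ k ^ 6 * ν := by positivity
  linarith

/-- The arithmetic of the approximation error. -/
lemma approx_bound {k ν : ℝ} (hk : 1 ≤ k) (hν : 1 ≤ ν) :
    2 * ν * (100 * k ^ 6 * (25 * k * (10000 * k ^ 3))) * (1 / (500 * (500 * k ^ 4)))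
      ≤ 0.003 * (10 * k ^ 3 * (10000 * k ^ 3 * ν)) := by
  have e : 2 * ν * (100 * k ^ 6 * (25 * k * (10000 * k ^ 3))) * (1 / (500 * (500 * k ^ 4)))
      = 200 * k ^ 6 * ν := by
    field_simp; ring
  rw [e]
  have : 0 ≤ k ^ 6 * ν := by positivity
  linarith

/-- The degree of the function. -/
lemma degree_bound {D M N d n P : ℕ} (hD : 1 ≤ D) (hN : N = 10 * D) (hn : n = N * (100 * (100 * M)))
    (hP : P ≤ 2 * D + 1)
    (hd : d ≤ max (N * (99 * (53 * M) + 100 * M)) (P * (100 * (100 * M)))) :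
    1000 * d ≤ 546 * n := by
  rcases le_max_iff.mp hd with h | h
  · calc 1000 * d ≤ 1000 * (N * (99 * (53 * M) + 100 * M)) := Nat.mul_le_mul_left _ h
      _ = 5347000 * (N * M) := by ring
      _ ≤ 5460000 * (N * M) := Nat.mul_le_mul_right _ (by norm_num)
      _ = _ := by rw [hn]; ring
  · calc 1000 * d ≤ 1000 * (P * (100 * (100 * M))) := Nat.mul_le_mul_left _ h
      _ ≤ 1000 * (3 * D * (100 * (100 * M))) :=
          Nat.mul_le_mul_left _ (Nat.mul_le_mul_right _ (by omega))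
      _ = 30000000 * (D * M) := by ring
      _ ≤ 54600000 * (D * M) := Nat.mul_le_mul_right _ (by norm_num)
      _ = _ := by rw [hn, hN]; ring

/-- The final arithmetic. -/
lemma final_gap {d n U S E A r : ℝ} (hn : 0 < n) (hU : Real.sqrt n = U) (hU1 : 1 ≤ U)
    (hd : 1000 * d ≤ 546 * n) (hE : E ≤ 0.003 * U) (hA : A ≤ 0.003 * U) (hr : r ≤ 1 / 1000)
    (hS : (1 - 3 / 500) * (0.773 * U) - 2 * E - A - r ≤ S) : Real.sqrt d < S := by
  have h1 : Real.sqrt d < 0.741 * U := by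
    rw [Real.sqrt_lt' (by linarith), mul_pow, ← hU, Real.sq_sqrt hn.le]
    linarith
  linarith

/-- An explicit family of parameters gives a function beating the square root. -/
theorem exists_counterexample :
    ∃ (n : ℕ) (f : (Fin n → Bool) → ℝ), 1 ≤ n ∧ IsBoolean f ∧ Real.sqrt (deg f) < linSum f := by
  obtain ⟨k', hk', hbig⟩ : ∃ k' : ℕ, 1 ≤ k' ∧
      48 * (250000000 : ℝ) ^ 5 * 500 * 10 ^ 4 ≤ (10 * (k' : ℝ)) ^ 4 :=
    ⟨10 ^ 13, by norm_num, by norm_num⟩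
  obtain ⟨k, hk⟩ : ∃ k : ℕ, k = 10 * k' := ⟨_, rfl⟩
  obtain ⟨D, hD⟩ : ∃ D : ℕ, D = 100000 * k' ^ 6 := ⟨_, rfl⟩
  have hkD : k ^ 6 = 10 * D := by rw [hk, hD]; ring
  have hk0 : 1 ≤ k := by omega
  have hD0 : 1 ≤ D := by
    rw [hD]; exact Nat.mul_pos (by norm_num) (Nat.one_le_pow _ _ hk')
  have hkr : (1 : ℝ) ≤ k := by exact_mod_cast hk0
  have hbig' : 48 * (250000000 : ℝ) ^ 5 * 500 * 10 ^ 4 ≤ (k : ℝ) ^ 4 := by
    rw [hk]; push_cast; exact hbig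
  -- the clipping level and the range
  obtain ⟨T, hT⟩ : ∃ T : ℤ, T = 25 * (k : ℤ) * (10000 * (k : ℤ) ^ 3) := ⟨_, rfl⟩
  have hk0' : (1 : ℤ) ≤ k := by exact_mod_cast hk0
  have hTpos : 0 < T := by rw [hT]; positivity
  obtain ⟨R, hR⟩ : ∃ R : ℤ, R = 100 * (k : ℤ) ^ 6 * T := ⟨_, rfl⟩
  have hRpos : 0 < R := by rw [hR]; positivity
  obtain ⟨Pq, hPd, hPb, hPs⟩ := exists_scaled hk0 hD0 hkD hbig' hRpos
  obtain ⟨q, Tv, hq, hTv⟩ := exists_table Pq R hPb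
  have : NeZero q := ⟨hq.ne'⟩
  obtain ⟨ν, M, hν1, hM1, hM, hsmall⟩ := exists_params k hk0 q
  obtain ⟨G₀, p, hp0, hG₀d, hG₀b, hG₀phi, hpM⟩ := exists_small_block (q := q) hM1
    (clip (ν : ℤ) T) (fun x y hxy => by simp [clip, hxy])
  have hν0 : (0 : ℤ) < (ν : ℤ) := by omega
  obtain ⟨n₁, z₁, G₁, hn₁, hP₁⟩ := exists_chain hν0 hTpos G₀ hG₀d hG₀b hG₀phi 99
  obtain ⟨Ni, hNi⟩ : ∃ Ni : ℕ, k ^ 6 = Ni + 1 :=
    ⟨k ^ 6 - 1, by have := Nat.one_le_pow 6 k hk0; omega⟩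
  obtain ⟨n, z, G, hn, hGM, hGd, hGb, hGphi, hGz, hGE⟩ := exists_top G₁ hP₁ Ni
  have hNir : ((Ni : ℝ) + 1) = (k : ℝ) ^ 6 := by exact_mod_cast hNi.symm
  have hNiz : ((Ni : ℤ) + 1) = (k : ℤ) ^ 6 := by exact_mod_cast hNi.symm
  have hbR : (((Ni : ℤ) + 1) * ((((99 : ℕ) : ℤ) + 1) * T)) = R := by
    rw [hR, hNiz]; push_cast; ring
  have hGphi' : ∀ l, |G.phi l| ≤ R := fun l => (hGphi l).trans (le_of_eq hbR)
  have hGz' : ∀ x, |z x| ≤ R := fun x => (hGz x).trans (le_of_eq hbR)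
  obtain ⟨P, hP⟩ : ∃ P : ℝ[X], P = Pq.map (algebraMap ℚ ℝ) := ⟨_, rfl⟩
  have hPe : ∀ v : ℝ, P.eval v = aeval v Pq := fun v => by rw [hP, eval_map_algebraMap]
  obtain ⟨f, hf, hfdeg, hcor⟩ := exists_round G hGd hGM hGb P Tv (fun v hv => by
    obtain ⟨x, -, rfl⟩ := mem_image.mp hv
    rw [hPe]; exact hTv _ (hGphi' _))
  have hn' : n = k ^ 6 * (100 * (100 * M)) := by rw [hn, hn₁, hNi]
  refine ⟨n, f, ?_, hf, ?_⟩
  · rw [hn']
    exact Nat.mul_pos (Nat.one_le_pow _ _ hk0) (by omega)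
  have hdeg : 1000 * deg f ≤ 546 * n := by
    refine degree_bound (P := P.natDegree) hD0 hkD hn' ?_ ?_
    · rw [hP]; exact natDegree_map_le.trans hPd
    · rw [hn₁, ← hNi] at hfdeg; exact hfdeg
  have hdeg' : (1000 : ℝ) * (deg f) ≤ 546 * (n : ℝ) := by exact_mod_cast hdeg
  have hnval : (n : ℝ) = (k : ℝ) ^ 6 * (100 * (100 * M)) := by rw [hn']; push_cast; ring
  obtain ⟨U, hU⟩ : ∃ U : ℝ, U = 10 * (k : ℝ) ^ 3 * (10000 * (k : ℝ) ^ 3 * ν) := ⟨_, rfl⟩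
  have hνr : (1 : ℝ) ≤ ν := by exact_mod_cast hν1
  have hMr : (M : ℝ) = (1000 * (k : ℝ) ^ 3 * ν) ^ 2 := by rw [hM]; push_cast; ring
  have hsq : Real.sqrt n = U := by
    rw [Real.sqrt_eq_iff_eq_sq (Nat.cast_nonneg _) (by rw [hU]; positivity), hnval, hMr, hU]; ring
  have hk3 : (1 : ℝ) ≤ (k : ℝ) ^ 3 := one_le_pow₀ hkr
  have hU1 : 1 ≤ U := by
    rw [hU]
    exact one_le_mul_of_one_le_of_one_le (by linarith)
      (one_le_mul_of_one_le_of_one_le (by linarith) hνr)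
  obtain ⟨E, hE⟩ : ∃ E : ℝ,
      E = (k : ℝ) ^ 6 * (100 * ((ν : ℝ) + 3 * (100 * (M : ℝ)) ^ 2 / ((ν : ℝ) * T) ^ 3)) := ⟨_, rfl⟩
  have hTr : (T : ℝ) = 25 * (k : ℝ) * (10000 * (k : ℝ) ^ 3) := by rw [hT]; push_cast; ring
  have hRr : (R : ℝ) = 100 * (k : ℝ) ^ 6 * (T : ℝ) := by rw [hR]; push_cast; ring
  have hE2 : E ≤ 0.003 * U := by rw [hE, hTr, hMr, hU]; exact error_bound hkr hνr
  have hwR : 2 * (ν : ℝ) * R * (1 / (500 * (500 * (k : ℝ) ^ 4))) ≤ 0.003 * U := by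
    rw [hRr, hTr, hU]; exact approx_bound hkr hνr
  have hGE' : ∑ x, |wsum x - (ν : ℝ) * (z x : ℝ)| ≤ E * 2 ^ n := by
    rw [hE]
    push_cast at hGE
    rw [hNir] at hGE
    convert hGE using 3
    ring
  have hlow := abs_sum_lower (n := n)
    (by rw [hn']; exact ⟨k ^ 6 * 100 * (50 * M), by ring⟩)
    (by
      rw [hn']
      calc 8 ≤ 1 * (100 * (100 * 1)) := by norm_num
        _ ≤ _ := Nat.mul_le_mul (Nat.one_le_pow _ _ hk0) (by omega))
  rw [hsq] at hlow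
  have hPz : ∀ x, |P.eval (z x : ℝ)| ≤ 1 := fun x => by rw [hPe]; exact hPb _ (hGz' x)
  have hmain := corr_lower (fun x => P.eval (z x : ℝ)) z hPz
    (fun x => by rw [hPe]; exact hPs _ (Nat.cast_nonneg ν) _ (hGz' x)) hGE' hlow
  have hzero : (univ.filter fun x => ¬ |P.eval (z x : ℝ)| ≤ 1) = ∅ :=
    filter_eq_empty_iff.mpr fun x _ hx => hx (hPz x)
  rw [hzero, sum_empty, mul_zero, zero_div, sub_zero] at hcor
  have hP0 : |P.eval 0| ≤ 1 := by
    have h := hPb 0 (by simpa using hRpos.le)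
    rw [Int.cast_zero] at h
    rw [hPe]; exact h
  have hrare : (2 + |P.eval 0|) * (n : ℝ) * (((Ni : ℝ) + 1) * ((((99 : ℕ) : ℝ) + 1) * p))
      ≤ 1 / 1000 := by
    rw [hNir, hnval]
    push_cast
    calc (2 + |P.eval 0|) * ((k : ℝ) ^ 6 * (100 * (100 * (M : ℝ)))) * ((k : ℝ) ^ 6 * ((99 + 1) * p))
        ≤ 3 * ((k : ℝ) ^ 6 * (100 * (100 * (M : ℝ)))) * ((k : ℝ) ^ 6 * ((99 + 1) * p)) := by
          gcongr; linarith
      _ = 3000000 * ((k : ℝ) ^ 6) ^ 2 * (p * M) := by ring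
      _ ≤ 3000000 * ((k : ℝ) ^ 6) ^ 2
            * (10 * (q : ℝ) ^ 2 * 300 ^ 4 * ((M : ℝ) ^ 5 * rho ^ M)) := by gcongr
      _ ≤ 10 ^ 7 * ((k : ℝ) ^ 6) ^ 2
            * (10 * (q : ℝ) ^ 2 * 300 ^ 4 * ((M : ℝ) ^ 5 * rho ^ M)) := by
          gcongr
          · exact mul_nonneg (by positivity) (mul_nonneg (by positivity) (pow_nonneg rho_pos.le _))
          · norm_num
      _ ≤ _ := by linarith
  refine final_gap (by rw [hnval]; positivity) hsq hU1 hdeg' hE2 hwR hrare (le_trans ?_ hcor)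
  have h2n : (0 : ℝ) < 2 ^ n := by positivity
  linarith [(le_div_iff₀ h2n).mpr hmain]

end Vale.Agent.P047
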