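import Vale.Agent.P047.Basic

/-!
The weak and strong forms of the square-root bound agree, and the growth exponent exists.
-/

namespace Vale.Agent.P047

open Filter Topology

lemma const_fn (b : ℝ) (hb : b = 1 ∨ b = -1) :
    IsBoolean (fun _ : Fin 1 → Bool => b) := fun _ => hb

lemma M_bddAbove (d : ℕ) :
    BddAbove {r : ℝ | ∃ (n : ℕ) (f : (Fin n → Bool) → ℝ),
      1 ≤ n ∧ IsBoolean f ∧ deg f ≤ d ∧ linSum f = r} :=
  ⟨d, fun _ ⟨_, _, _, hf, hd, hr⟩ => hr ▸ (linSum_le_deg hf).trans (by exact_mod_cast hd)⟩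

lemma le_M {n d : ℕ} {f : (Fin n → Bool) → ℝ} (hn : 1 ≤ n) (hf : IsBoolean f) (hd : deg f ≤ d) :
    linSum f ≤ M d :=
  le_csSup (M_bddAbove d) ⟨n, f, hn, hf, hd, rfl⟩

lemma one_le_M {d : ℕ} (hd : 1 ≤ d) : 1 ≤ M d := by
  obtain ⟨g, h1, _, h3, h4⟩ := exists_base
  exact h4 ▸ le_M le_rfl h1 ((deg_le_of_low g h3).trans hd)

lemma M_le {d : ℕ} (hd : 1 ≤ d) : M d ≤ d := by
  obtain ⟨g, h1, _, h3, _⟩ := exists_base
  refine csSup_le ⟨_, 1, g, le_rfl, h1, (deg_le_of_low g h3).trans hd, rfl⟩ ?_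
  rintro _ ⟨n, f, _, hf, hfd, rfl⟩
  exact (linSum_le_deg hf).trans (by exact_mod_cast hfd)

/-- Supermultiplicativity in the form that is used below. -/
lemma pow_le_M {n d : ℕ} {f : (Fin n → Bool) → ℝ} (hf : IsBoolean f) (hd : deg f ≤ d)
    (h2 : 2 ≤ d) (h0 : 0 ≤ linSum f) {k D : ℕ} (hD : 2 * d ^ k ≤ D) :
    linSum f ^ k ≤ M D := by
  obtain ⟨m, E, g, hm, hg, _, hlow, hE, hS⟩ := amplify hf hd h2 h0 k
  exact hS.trans (le_M hm hg ((deg_le_of_low g hlow).trans (by omega)))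

/-- An eventual power bound on `M` is exact for every function. -/
lemma power_bound {a C : ℝ} (ha : 0 ≤ a) (hC : ∀ D : ℕ, 1 ≤ D → M D ≤ C * (D : ℝ) ^ a)
    {n d : ℕ} {f : (Fin n → Bool) → ℝ} (hf : IsBoolean f) (hd : deg f ≤ d) (hd1 : 1 ≤ d) :
    linSum f ≤ (d : ℝ) ^ a := by
  by_contra hlt
  push Not at hlt
  have hpos : (0 : ℝ) < (d : ℝ) ^ a := by positivity
  have h0 : 0 < linSum f := hpos.trans hlt
  rcases Nat.lt_or_ge d 2 with h | h2
  · obtain rfl : d = 1 := by omega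
    have := (linSum_le_deg hf).trans (by exact_mod_cast hd : (deg f : ℝ) ≤ (1 : ℕ))
    simp at hlt this
    linarith
  have hr : 1 < linSum f / (d : ℝ) ^ a := (one_lt_div hpos).mpr hlt
  obtain ⟨k, hk⟩ := pow_unbounded_of_one_lt (C * 2 ^ a) hr
  have hb := (pow_le_M hf hd h2 h0.le (le_refl (2 * d ^ k))).trans
    (hC _ (by have := Nat.one_le_pow k d (by omega); omega))
  rw [div_pow, lt_div_iff₀ (by positivity)] at hk
  push_cast at hb
  rw [Real.mul_rpow (by norm_num) (by positivity), ← Real.rpow_natCast (d : ℝ) k,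
    ← Real.rpow_mul (by positivity), mul_comm (k : ℝ) a, Real.rpow_mul (by positivity),
    Real.rpow_natCast] at hb
  linarith

lemma M_power_iff {a : ℝ} (ha : 0 ≤ a) :
    (∃ C : ℝ, ∀ d : ℕ, 1 ≤ d → M d ≤ C * (d : ℝ) ^ a) ↔
      ∀ d : ℕ, 1 ≤ d → M d ≤ (d : ℝ) ^ a := by
  refine ⟨fun ⟨C, hC⟩ d hd => ?_, fun h => ⟨1, fun d hd => by simpa using h d hd⟩⟩
  obtain ⟨g, h1, _, h3, _⟩ := exists_base
  refine csSup_le ⟨_, 1, g, le_rfl, h1, (deg_le_of_low g h3).trans hd, rfl⟩ ?_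
  rintro _ ⟨n, f, _, hf, hfd, rfl⟩
  exact power_bound ha hC hf hfd hd

lemma log_ratio_le_one {d : ℕ} (hd : 2 ≤ d) : Real.log (M d) / Real.log d ≤ 1 := by
  have hpos : 0 < Real.log d := Real.log_pos (by exact_mod_cast hd)
  rw [div_le_one hpos]
  exact Real.log_le_log (lt_of_lt_of_le one_pos (one_le_M (by omega))) (M_le (by omega))

lemma exists_exponent :
    ∃ θ : ℝ, θ ∈ Set.Icc 0 1 ∧ (∀ d : ℕ, 1 ≤ d → M d ≤ (d : ℝ) ^ θ) ∧
      Tendsto (fun d : ℕ => Real.log (M d) / Real.log d) atTop (𝓝 θ) := by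
  set A : Set ℝ := {r | ∃ d : ℕ, 2 ≤ d ∧ r = Real.log (M d) / Real.log d}
  have hA : BddAbove A := ⟨1, fun _ ⟨d, hd, hr⟩ => hr ▸ log_ratio_le_one hd⟩
  have hne : A.Nonempty := ⟨_, 2, le_rfl, rfl⟩
  set θ := sSup A with hθ
  have h0 : 0 ≤ θ :=
    le_trans (div_nonneg (Real.log_nonneg (one_le_M (by norm_num))) (Real.log_natCast_nonneg 2))
      (le_csSup hA ⟨2, le_rfl, rfl⟩)
  refine ⟨θ, ⟨h0, csSup_le hne fun _ ⟨d, hd, hr⟩ => hr ▸ log_ratio_le_one hd⟩, ?_, ?_⟩
  · intro d hd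
    rcases Nat.lt_or_ge d 2 with h | h2
    · obtain rfl : d = 1 := by omega
      simpa using M_le (d := 1) le_rfl
    · have hd' : (1 : ℝ) < d := by exact_mod_cast h2
      have h := le_csSup hA ⟨d, h2, rfl⟩
      rw [← hθ, div_le_iff₀ (Real.log_pos hd')] at h
      rw [Real.rpow_def_of_pos (by linarith), mul_comm,
        ← Real.log_le_iff_le_exp (lt_of_lt_of_le one_pos (one_le_M (by omega)))]
      exact h
  · refine Metric.tendsto_atTop.mpr fun ε hε => ?_
    have hupper : ∀ D : ℕ, 2 ≤ D → Real.log (M D) / Real.log D ≤ θ :=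
      fun D hD => le_csSup hA ⟨D, hD, rfl⟩
    suffices hlow : ∃ N : ℕ, ∀ D ≥ N, θ - ε < Real.log (M D) / Real.log D by
      obtain ⟨N, hN⟩ := hlow
      refine ⟨max N 2, fun D hD => ?_⟩
      rw [Real.dist_eq, abs_lt]
      have h1 := hN D (le_of_max_le_left hD)
      have h2 := hupper D (le_of_max_le_right hD)
      constructor <;> linarith
    rcases lt_or_ge θ ε with hlt | hge
    · refine ⟨2, fun D hD => lt_of_lt_of_le (sub_neg.mpr hlt) ?_⟩
      exact div_nonneg (Real.log_nonneg (one_le_M (by omega))) (Real.log_natCast_nonneg D)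
    obtain ⟨_, ⟨d, hd, rfl⟩, hd'⟩ := exists_lt_of_lt_csSup hne (show θ - ε / 2 < θ by linarith)
    have hld : 0 < Real.log d := Real.log_pos (by exact_mod_cast hd)
    rw [lt_div_iff₀ hld, Real.lt_log_iff_exp_lt (lt_of_lt_of_le one_pos (one_le_M (by omega)))] at hd'
    obtain ⟨g, h1, _, h3, _⟩ := exists_base
    have hne' : {r : ℝ | ∃ (n : ℕ) (f : (Fin n → Bool) → ℝ),
        1 ≤ n ∧ IsBoolean f ∧ deg f ≤ d ∧ linSum f = r}.Nonempty :=
      ⟨_, 1, g, le_rfl, h1, (deg_le_of_low g h3).trans (by omega : 1 ≤ d), rfl⟩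
    obtain ⟨_, ⟨n, f, hn, hf, hfd, rfl⟩, hS⟩ := exists_lt_of_lt_csSup hne' hd'
    have hSpos : 0 < linSum f := (Real.exp_pos _).trans hS
    set c := Real.log (linSum f) with hc
    have hcl : (θ - ε / 2) * Real.log d < c := by
      rw [hc, Real.lt_log_iff_exp_lt hSpos]; exact hS
    have hc0 : 0 ≤ c := le_trans (mul_nonneg (by linarith) hld.le) hcl.le
    -- a constant loss, negligible against `log D`
    set K := c * (Real.log 2 / Real.log d + 1) with hK
    obtain ⟨N, hN⟩ := exists_nat_gt (Real.exp (2 * K / ε))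
    refine ⟨max N 4, fun D hD => ?_⟩
    have hD4 : 4 ≤ D := le_of_max_le_right hD
    set k := Nat.log d (D / 2) with hk
    have hk1 : 2 * d ^ k ≤ D := by
      rw [hk]
      have := Nat.pow_log_le_self d (show D / 2 ≠ 0 by omega)
      omega
    have hk2 : D < 2 * d ^ (k + 1) := by
      rw [hk]
      have := Nat.lt_pow_succ_log_self (show 1 < d by omega) (D / 2)
      rw [Nat.succ_eq_add_one] at this
      omega
    have hk2' : (D : ℝ) < 2 * (d : ℝ) ^ (k + 1) := by exact_mod_cast hk2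
    have hDpos : (0 : ℝ) < D := by
      have : (4 : ℝ) ≤ D := by exact_mod_cast hD4
      linarith
    have hlogD := Real.log_lt_log hDpos hk2'
    rw [Real.log_mul (by norm_num) (by positivity), Real.log_pow] at hlogD
    push_cast at hlogD
    have hM : (k : ℝ) * c ≤ Real.log (M D) := by
      rw [hc, ← Real.log_pow]
      exact Real.log_le_log (pow_pos hSpos k) (pow_le_M hf hfd hd hSpos.le hk1)
    have hLD : 0 < Real.log D := Real.log_pos (by exact_mod_cast (by omega : 1 < D))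
    have hbig : 2 * K / ε < Real.log D := by
      rw [Real.lt_log_iff_exp_lt hDpos]
      exact hN.trans_le (by exact_mod_cast le_of_max_le_left hD)
    rw [div_lt_iff₀ hε] at hbig
    rw [lt_div_iff₀ hLD]
    have e1 : (Real.log D - Real.log 2) / Real.log d ≤ (k : ℝ) + 1 := by
      rw [div_le_iff₀ hld]; linarith
    have e2 := mul_le_mul_of_nonneg_left e1 hc0
    have e3 : c * ((Real.log D - Real.log 2) / Real.log d) - c
        = c / Real.log d * Real.log D - K := by rw [hK]; ring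
    have e4 : θ - ε / 2 < c / Real.log d := by rw [lt_div_iff₀ hld]; exact hcl
    have e5 := mul_lt_mul_of_pos_right e4 hLD
    nlinarith

end Vale.Agent.P047
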