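import Mathlib

/-!
Random subsets and spread families; disjoint sets with equal vector sums.
-/

namespace Vale.Agent.P047

open Finset

variable {V : Type*} [Fintype V] [DecidableEq V]

/-- The product weight of a set given by its indicator. -/
def wt (p : ℝ) (W : V → Bool) : ℝ := ∏ x, if W x then p else 1 - p

/-- The set with indicator `W`. -/
def supp (W : V → Bool) : Finset V := univ.filter (fun x => W x = true)

omit [DecidableEq V] in
lemma wt_nonneg {p : ℝ} (h0 : 0 ≤ p) (h1 : p ≤ 1) (W : V → Bool) : 0 ≤ wt p W :=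
  prod_nonneg fun x _ => by split <;> linarith

lemma sum_wt (p : ℝ) : ∑ W : V → Bool, wt p W = 1 := by
  unfold wt
  rw [← Fintype.prod_sum (fun (_ : V) (b : Bool) => if b then p else 1 - p)]
  simp

/-- Image of a product weight under a map of the values. -/
lemma push_sum {α β : Type*} [Fintype α] [DecidableEq α] [Fintype β] [DecidableEq β]
    (π : α → β) (w : α → ℝ) (F : (V → β) → ℝ) :
    ∑ c : V → α, (∏ x, w (c x)) * F (fun x => π (c x))
      = ∑ d : V → β, (∏ x, ∑ a ∈ univ.filter (fun a => π a = d x), w a) * F d := by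
  rw [← sum_fiberwise (s := univ) (g := fun c : V → α => fun x => π (c x))]
  refine sum_congr rfl fun d _ => ?_
  rw [prod_univ_sum, sum_mul]
  refine sum_congr ?_ fun c hc => ?_
  · ext c; simp [Fintype.mem_piFinset, funext_iff]
  · have : (fun x => π (c x)) = d := funext fun x => by
      have := Fintype.mem_piFinset.mp hc x; simpa using this
    rw [this]

/-- A union of independent random sets. -/
lemma union_sum (p q : ℝ) (F : (V → Bool) → ℝ) :
    ∑ A : V → Bool, ∑ B : V → Bool, wt p A * (wt q B * F (fun x => A x || B x))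
      = ∑ W : V → Bool, wt (p + q - p * q) W * F W := by
  have h := push_sum (V := V) (fun a : Bool × Bool => a.1 || a.2)
    (fun a => (if a.1 then p else 1 - p) * (if a.2 then q else 1 - q)) F
  rw [← (Equiv.arrowProdEquivProdArrow V (fun _ => Bool) (fun _ => Bool)).symm.sum_comp,
    Fintype.sum_prod_type] at h
  refine (Eq.trans ?_ (h.trans ?_))
  · refine sum_congr rfl fun A _ => sum_congr rfl fun B _ => ?_
    rw [← mul_assoc]
    simp only [wt, Equiv.arrowProdEquivProdArrow, Equiv.coe_fn_symm_mk, prod_mul_distrib]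
    rfl
  · refine sum_congr rfl fun W _ => ?_
    congr 1
    refine prod_congr rfl fun x _ => ?_
    rw [sum_filter]
    cases W x <;> simp [Fintype.sum_prod_type] <;> ring

/-- `1` when no member of the family lies inside `W`. -/
def fail {ι : Type*} (J : Finset ι) (A : ι → Finset V) (W : V → Bool) : ℝ :=
  if ∃ i ∈ J, A i ⊆ supp W then 0 else 1

lemma fail_nonneg {ι : Type*} (J : Finset ι) (A : ι → Finset V) (W : V → Bool) :
    0 ≤ fail J A W := by unfold fail; split <;> norm_num

lemma fail_le_one {ι : Type*} (J : Finset ι) (A : ι → Finset V) (W : V → Bool) :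
    fail J A W ≤ 1 := by unfold fail; split <;> norm_num

/-- One round: few members keep a large fragment outside the random set. -/
lemma fragment_count {ι : Type*} [DecidableEq ι] (J : Finset ι) (A : ι → Finset V) {h : ℕ}
    (hA : ∀ i ∈ J, (A i).card ≤ 2 * h + 1) {M r p : ℝ} (hp0 : 0 < p) (hp1 : p ≤ 1) (hM : 0 ≤ M)
    (hr : 0 < r) (hX : 4 ≤ p * r)
    (hsp : ∀ T : Finset V, T.Nonempty → ((J.filter fun i => T ⊆ A i).card : ℝ) * r ^ T.card ≤ M)
    (T : (V → Bool) → ι → Finset V)
    (hT : ∀ W, ∀ i ∈ J, T W i ⊆ A i ∧ Disjoint (T W i) (supp W) ∧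
      (∃ j ∈ J, A j ⊆ supp W ∪ T W i) ∧
      ∀ j ∈ J, A j ⊆ supp W ∪ T W i → T W i ⊆ A j) :
    ∑ W : V → Bool, wt p W * ((J.filter fun i => h < (T W i).card).card : ℝ)
      ≤ 2 / (p * r) * M := by
  classical
  set X := p * r with hXdef
  let P : (V → Bool) → Finset (Finset V) := fun Z =>
    if hZ : ∃ j ∈ J, A j ⊆ supp Z then
      (A hZ.choose).powerset.filter (fun S => h < S.card ∧ S ⊆ supp Z) else ∅
  let rem : (V → Bool) → Finset V → (V → Bool) := fun Z S x => Z x && decide (x ∉ S)
  let add : (V → Bool) → Finset V → (V → Bool) := fun W S x => W x || decide (x ∈ S)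
  have hsupp : ∀ W S, supp (add W S) = supp W ∪ S := fun W S => by
    ext x; simp [add, supp]
  have hwt : ∀ Z S, S ⊆ supp Z → wt p (rem Z S) = wt p Z * ((1 - p) / p) ^ S.card := by
    intro Z S hS
    have e : ((1 - p) / p) ^ S.card = ∏ x, if x ∈ S then (1 - p) / p else 1 := by
      rw [Finset.prod_ite_mem, univ_inter, prod_const]
    rw [e, wt, wt, ← prod_mul_distrib]
    refine prod_congr rfl fun x _ => ?_
    by_cases hx : x ∈ S
    · have : Z x = true := by simpa [supp] using hS hx
      simp [rem, hx, this]; field_simp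
    · simp [rem, hx]
  have hone : ∀ i ∈ J, ∑ W : V → Bool, wt p W * (if h < (T W i).card then 1 else 0)
      ≤ ∑ Z : V → Bool, ∑ S ∈ (P Z).filter (fun S => S ⊆ A i), wt p (rem Z S) := by
    intro i hi
    simp only [mul_ite, mul_one, mul_zero]
    rw [← sum_filter, sum_sigma' univ (fun Z => (P Z).filter (fun S => S ⊆ A i))]
    have hrec : ∀ W, rem (add W (T W i)) (T W i) = W := by
      intro W; ext x
      by_cases hx : x ∈ T W i
      · have : W x = false := by
          simpa [supp] using disjoint_left.mp (hT W i hi).2.1 hx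
        simp [rem, add, hx, this]
      · simp [rem, add, hx]
    set e : (V → Bool) → (Σ _ : V → Bool, Finset V) := fun W => ⟨add W (T W i), T W i⟩ with he
    rw [show ∑ W ∈ univ.filter (fun W => h < (T W i).card), wt p W
      = ∑ z ∈ (univ.filter (fun W => h < (T W i).card)).image e, wt p (rem z.1 z.2) from ?_]
    · refine sum_le_sum_of_subset_of_nonneg ?_ fun z _ _ => wt_nonneg hp0.le hp1 _
      intro z hz
      obtain ⟨W, hW, rfl⟩ := mem_image.mp hz
      simp only [mem_sigma, mem_univ, true_and, mem_filter, he]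
      obtain ⟨h1, _, ⟨j, hj, hjs⟩, h4⟩ := hT W i hi
      have hex : ∃ j ∈ J, A j ⊆ supp (add W (T W i)) := ⟨j, hj, by rwa [hsupp]⟩
      refine ⟨?_, h1⟩
      simp only [P, dif_pos hex, mem_filter, mem_powerset]
      refine ⟨h4 _ hex.choose_spec.1 ?_, (mem_filter.mp hW).2, ?_⟩
      · rw [← hsupp]; exact hex.choose_spec.2
      · rw [hsupp]; exact subset_union_right
    · rw [sum_image]
      · exact sum_congr rfl fun W _ => by simp [he, hrec]
      · intro W _ W' _ hWW
        simp only [he, Sigma.mk.injEq, heq_eq_eq] at hWW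
        have := congrArg₂ rem hWW.1 hWW.2
        rwa [hrec, hrec] at this
  calc ∑ W : V → Bool, wt p W * ((J.filter fun i => h < (T W i).card).card : ℝ)
      = ∑ i ∈ J, ∑ W : V → Bool, wt p W * (if h < (T W i).card then 1 else 0) := by
        rw [sum_comm]; simp_rw [← mul_sum, sum_boole]
    _ ≤ ∑ i ∈ J, ∑ Z : V → Bool, ∑ S ∈ (P Z).filter (fun S => S ⊆ A i), wt p (rem Z S) :=
        sum_le_sum hone
    _ = ∑ Z : V → Bool, ∑ S ∈ P Z, ((J.filter fun i => S ⊆ A i).card : ℝ) * wt p (rem Z S) := by
        rw [sum_comm]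
        refine sum_congr rfl fun Z _ => ?_
        simp_rw [sum_filter]
        rw [sum_comm]
        refine sum_congr rfl fun S _ => ?_
        rw [← sum_filter, sum_const, nsmul_eq_mul]
    _ ≤ ∑ Z : V → Bool, wt p Z * (2 / X * M) := by
        refine sum_le_sum fun Z _ => ?_
        have hwZ := wt_nonneg hp0.le hp1 Z
        by_cases hZ : ∃ j ∈ J, A j ⊆ supp Z
        · simp only [P, dif_pos hZ]
          set B := A hZ.choose with hB
          have hBcard : B.card ≤ 2 * h + 1 := hA _ hZ.choose_spec.1
          have hterm : ∀ S ∈ B.powerset.filter (fun S => h < S.card ∧ S ⊆ supp Z),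
              ((J.filter fun i => S ⊆ A i).card : ℝ) * wt p (rem Z S)
                ≤ wt p Z * M / X ^ (h + 1) := by
            intro S hS
            obtain ⟨-, hc, hSZ⟩ := mem_filter.mp hS
            rw [hwt Z S hSZ]
            have h1 := hsp S (card_pos.mp (by omega))
            have h2 : ((1 - p) / p) ^ S.card ≤ (1 / p) ^ S.card := by
              refine pow_le_pow_left₀ (div_nonneg (by linarith) hp0.le) ?_ _
              gcongr; linarith
            have h3 : X ^ (h + 1) ≤ X ^ S.card := pow_le_pow_right₀ (by linarith) hc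
            calc ((J.filter fun i => S ⊆ A i).card : ℝ) * (wt p Z * ((1 - p) / p) ^ S.card)
                ≤ (M / r ^ S.card) * (wt p Z * (1 / p) ^ S.card) := by
                  refine mul_le_mul ((le_div_iff₀ (by positivity)).mpr h1)
                    (mul_le_mul_of_nonneg_left h2 hwZ)
                    (mul_nonneg hwZ (pow_nonneg (div_nonneg (by linarith) hp0.le) _))
                    (by positivity)
              _ = wt p Z * M / X ^ S.card := by
                  rw [hXdef, mul_pow, div_pow, one_pow]; field_simp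
              _ ≤ wt p Z * M / X ^ (h + 1) :=
                  div_le_div_of_nonneg_left (by positivity) (by positivity) h3
          refine (sum_le_card_nsmul _ _ _ hterm).trans ?_
          rw [nsmul_eq_mul]
          have hc : ((B.powerset.filter (fun S => h < S.card ∧ S ⊆ supp Z)).card : ℝ)
              ≤ 2 * 4 ^ h := by
            have := (card_le_card (filter_subset (fun S => h < S.card ∧ S ⊆ supp Z) B.powerset))
            rw [card_powerset] at this
            have h2 : 2 ^ B.card ≤ 2 * 4 ^ h :=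
              (Nat.pow_le_pow_right two_pos hBcard).trans (le_of_eq (by rw [pow_succ', pow_mul]; norm_num))
            exact_mod_cast this.trans h2
          calc _ ≤ (2 * 4 ^ h) * (wt p Z * M / X ^ (h + 1)) :=
                mul_le_mul_of_nonneg_right hc (by positivity)
            _ ≤ (2 * X ^ h) * (wt p Z * M / X ^ (h + 1)) := by gcongr
            _ = _ := by rw [pow_succ]; field_simp
        · simp only [P, dif_neg hZ, sum_empty]; positivity
    _ = 2 / X * M := by rw [← sum_mul, sum_wt, one_mul]

/-- The spread lemma: a union of `l` random sets of density `p` contains a member. -/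
lemma spread_lemma {M r p : ℝ} (hp0 : 0 < p) (hp1 : p ≤ 1) (hM : 0 ≤ M) (hr : 0 < r)
    (hX : 4 ≤ p * r) : ∀ (l : ℕ) {ι : Type*} [DecidableEq ι] (J : Finset ι) (A : ι → Finset V),
      (∀ i ∈ J, (A i).card < 2 ^ l) →
      (∀ T : Finset V, T.Nonempty → ((J.filter fun i => T ⊆ A i).card : ℝ) * r ^ T.card ≤ M) →
      (∑ W : V → Bool, wt (1 - (1 - p) ^ l) W * fail J A W) * J.card ≤ l * (2 / (p * r)) * M := by
  intro l
  induction l with
  | zero =>
    intro ι _ J A hs _
    rcases J.eq_empty_or_nonempty with h | ⟨i, hi⟩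
    · simp [h]
    · have he : A i = ∅ := card_eq_zero.mp (by simpa using hs i hi)
      have : ∀ W, fail J A W = 0 := fun W => by
        rw [fail, if_pos ⟨i, hi, by simp [he]⟩]
      simp [this]
  | succ l ih =>
    intro ι _ J A hs hsp
    classical
    have hmin : ∀ (W : V → Bool) (i : ι), ∃ S : Finset V, i ∈ J → (S ⊆ A i ∧ Disjoint S (supp W) ∧
        (∃ j ∈ J, A j ⊆ supp W ∪ S) ∧ ∀ j ∈ J, A j ⊆ supp W ∪ S → S ⊆ A j) := by
      intro W i
      by_cases hi : i ∈ J
      · obtain ⟨j, hj, hjmin⟩ := exists_min_image (J.filter fun j => A j ⊆ supp W ∪ A i)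
          (fun j => (A j \ supp W).card) ⟨i, mem_filter.mpr ⟨hi, subset_union_right⟩⟩
        obtain ⟨hjJ, hjs⟩ := mem_filter.mp hj
        refine ⟨A j \ supp W, fun _ => ⟨?_, sdiff_disjoint, ⟨j, hjJ, by simp⟩, ?_⟩⟩
        · exact sdiff_le_iff.mpr hjs
        · intro k hk hks
          have hks' : A k ⊆ supp W ∪ A i :=
            hks.trans (union_subset_union_right (sdiff_le_iff.mpr hjs))
          have hsub : A k \ supp W ⊆ A j \ supp W := sdiff_le_iff.mpr hks
          have := eq_of_subset_of_card_le hsub (hjmin k (mem_filter.mpr ⟨hk, hks'⟩))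
          rw [← this]; exact sdiff_subset
      · exact ⟨∅, fun h => absurd h hi⟩
    choose T hT using hmin
    have h2l : 0 < 2 ^ l := Nat.two_pow_pos l
    set h := 2 ^ l - 1 with hh
    have hA : ∀ i ∈ J, (A i).card ≤ 2 * h + 1 := fun i hi => by
      have := hs i hi; rw [pow_succ] at this; omega
    have hcount := fragment_count J A hA hp0 hp1 hM hr hX hsp T (fun W i hi => hT W i hi)
    set P := 1 - (1 - p) ^ l with hP
    have hP0 : 0 ≤ P := by
      have : (1 - p) ^ l ≤ 1 := pow_le_one₀ (by linarith) (by linarith)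
      linarith
    have hP1 : P ≤ 1 := by
      have : 0 ≤ (1 - p) ^ l := pow_nonneg (by linarith) l
      linarith
    have hu : 1 - (1 - p) ^ (l + 1) = p + P - p * P := by rw [hP, pow_succ]; ring
    rw [hu, ← union_sum, sum_mul]
    calc ∑ W1 : V → Bool, (∑ W2 : V → Bool,
          wt p W1 * (wt P W2 * fail J A (fun x => W1 x || W2 x))) * (J.card : ℝ)
        ≤ ∑ W1 : V → Bool, wt p W1 *
            ((l : ℝ) * (2 / (p * r)) * M + ((J.filter fun i => h < (T W1 i).card).card : ℝ)) := by
          refine sum_le_sum fun W1 _ => ?_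
          rw [← mul_sum, mul_assoc]
          refine mul_le_mul_of_nonneg_left ?_ (wt_nonneg hp0.le hp1 _)
          set J' := J.filter fun i => ¬ h < (T W1 i).card with hJ'
          have hsplit : (J.card : ℝ) = (J'.card : ℝ)
              + ((J.filter fun i => h < (T W1 i).card).card : ℝ) := by
            rw [hJ', ← Nat.cast_add, add_comm, card_filter_add_card_filter_not]
          have hrec := ih J' (T W1) (fun i hi => by
              have := (mem_filter.mp hi).2; omega)
            (fun S hS => le_trans (by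
              refine mul_le_mul_of_nonneg_right (Nat.cast_le.mpr (card_le_card fun i hi => ?_))
                (by positivity)
              obtain ⟨hi1, hi2⟩ := mem_filter.mp hi
              have hi3 := (mem_filter.mp hi1).1
              exact mem_filter.mpr ⟨hi3, hi2.trans (hT W1 i hi3).1⟩) (hsp S hS))
          have hle : ∀ W2, fail J A (fun x => W1 x || W2 x) ≤ fail J' (T W1) W2 := by
            intro W2
            by_cases hex : ∃ i ∈ J', T W1 i ⊆ supp W2
            · obtain ⟨i, hi, hi2⟩ := hex
              obtain ⟨j, hj, hjs⟩ := (hT W1 i (mem_filter.mp hi).1).2.2.1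
              have hsub : A j ⊆ supp (fun x => W1 x || W2 x) := by
                refine hjs.trans fun x hx => ?_
                rcases mem_union.mp hx with hx | hx
                · simp only [supp, mem_filter, mem_univ, true_and] at hx ⊢; simp [hx]
                · have h2x := hi2 hx
                  simp only [supp, mem_filter, mem_univ, true_and] at h2x ⊢; simp [h2x]
              rw [show fail J A (fun x => W1 x || W2 x) = 0 by rw [fail, if_pos ⟨j, hj, hsub⟩]]
              exact fail_nonneg _ _ _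
            · rw [show fail J' (T W1) W2 = 1 by rw [fail, if_neg hex]]
              exact fail_le_one _ _ _
          have hsum : ∑ W2 : V → Bool, wt P W2 * fail J A (fun x => W1 x || W2 x)
              ≤ ∑ W2 : V → Bool, wt P W2 * fail J' (T W1) W2 :=
            sum_le_sum fun W2 _ => mul_le_mul_of_nonneg_left (hle W2) (wt_nonneg hP0 hP1 _)
          have hone : ∑ W2 : V → Bool, wt P W2 * fail J' (T W1) W2 ≤ 1 :=
            (sum_le_sum fun W2 _ => mul_le_of_le_one_right (wt_nonneg hP0 hP1 _)
              (fail_le_one _ _ _)).trans (le_of_eq (sum_wt P))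
          rw [hsplit]
          nlinarith [mul_le_mul_of_nonneg_right hsum
              (show (0 : ℝ) ≤ (J'.card : ℝ) + ((J.filter fun i => h < (T W1 i).card).card : ℝ) by
                positivity),
            mul_le_mul_of_nonneg_right hone
              (show (0 : ℝ) ≤ ((J.filter fun i => h < (T W1 i).card).card : ℝ) by positivity)]
      _ = (l : ℝ) * (2 / (p * r)) * M
            + ∑ W1 : V → Bool, wt p W1 * ((J.filter fun i => h < (T W1 i).card).card : ℝ) := by
          simp_rw [mul_add]; rw [sum_add_distrib, ← sum_mul, sum_wt, one_mul]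
      _ ≤ _ := by push_cast; linarith

/-- A spread family of small sets has `q` pairwise disjoint members, one in each colour class. -/
lemma disjoint_members {ι : Type*} [DecidableEq ι] {q L : ℕ} (hq : 0 < q) (hL : 0 < L)
    (J : Finset ι) (A : ι → Finset V) (hJ : J.Nonempty) (hs : ∀ i ∈ J, (A i).card < 2 ^ L)
    (hsp : ∀ T : Finset V, T.Nonempty →
      (J.filter fun i => T ⊆ A i).card * (4 * (q * L) ^ 2) ^ T.card ≤ J.card) :
    ∃ (c : V → Fin q) (g : Fin q → ι), ∀ a, g a ∈ J ∧ ∀ x ∈ A (g a), c x = a := by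
  classical
  set p : ℝ := 1 / ((q : ℝ) * L) with hp
  set r : ℝ := ((4 * (q * L) ^ 2 : ℕ) : ℝ) with hr
  have hq' : (1 : ℝ) ≤ q := by exact_mod_cast hq
  have hL' : (1 : ℝ) ≤ L := by exact_mod_cast hL
  have hqL : (1 : ℝ) ≤ (q : ℝ) * L := one_le_mul_of_one_le_of_one_le hq' hL'
  have hp0 : 0 < p := by positivity
  have hp1 : p ≤ 1 := by rw [hp, div_le_one (by positivity)]; exact hqL
  have hX : p * r = 4 * ((q : ℝ) * L) := by rw [hp, hr]; push_cast; field_simp
  have hcard : (0 : ℝ) < J.card := by exact_mod_cast hJ.card_pos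
  set P := 1 - (1 - p) ^ L with hP
  have hPq : P ≤ 1 / q := by
    have h := one_add_mul_le_pow (by linarith : (-2 : ℝ) ≤ -p) L
    have e : (L : ℝ) * p = 1 / q := by rw [hp]; field_simp
    rw [hP, show (1 : ℝ) - p = 1 + -p by ring]; linarith
  have hP0 : 0 ≤ P := by
    have : (1 - p) ^ L ≤ 1 := pow_le_one₀ (by linarith) (by linarith)
    linarith
  have hsl := spread_lemma hp0 hp1 hcard.le (by positivity : (0 : ℝ) < r)
    (by rw [hX]; linarith) L J A hs
    (fun T hT => by rw [hr]; exact_mod_cast hsp T hT)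
  have hbound : ∑ W : V → Bool, wt P W * fail J A W ≤ 1 / (2 * q) := by
    have := (le_div_iff₀ hcard).mpr hsl
    refine this.trans (le_of_eq ?_)
    rw [hX]; field_simp; ring
  -- density exactly `1/q`
  have hq2 : ∑ W : V → Bool, wt (1 / (q : ℝ)) W * fail J A W ≤ 1 / (2 * q) := by
    rcases eq_or_lt_of_le hPq with he | hlt
    · rw [← he]; exact hbound
    have hq1 : (1 : ℝ) / q ≤ 1 := by rw [div_le_one (by linarith)]; exact hq'
    set u := (1 / (q : ℝ) - P) / (1 - P) with hu
    have hu0 : 0 ≤ u := div_nonneg (by linarith) (by linarith)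
    have hu1 : u ≤ 1 := by rw [hu, div_le_one (by linarith)]; linarith
    have e : 1 / (q : ℝ) = P + u - P * u := by
      have : u * (1 - P) = 1 / (q : ℝ) - P := div_mul_cancel₀ _ (by linarith)
      linarith
    rw [e, ← union_sum]
    refine le_trans (le_trans (sum_le_sum (g := fun A' : V → Bool => wt P A' * fail J A A')
      fun A' _ => ?_) le_rfl) hbound
    calc ∑ B : V → Bool, wt P A' * (wt u B * fail J A (fun x => A' x || B x))
        ≤ ∑ B : V → Bool, wt P A' * (wt u B * fail J A A') := by
          refine sum_le_sum fun B _ => mul_le_mul_of_nonneg_left (mul_le_mul_of_nonneg_left ?_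
            (wt_nonneg hu0 hu1 _)) (wt_nonneg hP0 (by linarith) _)
          by_cases hex : ∃ i ∈ J, A i ⊆ supp A'
          · obtain ⟨i, hi, hi'⟩ := hex
            rw [fail, if_pos ⟨i, hi, hi'.trans fun x hx => by
              simp only [supp, mem_filter, mem_univ, true_and] at hx ⊢; simp [hx]⟩]
            exact fail_nonneg _ _ _
          · rw [show fail J A A' = 1 by rw [fail, if_neg hex]]; exact fail_le_one _ _ _
      _ = wt P A' * fail J A A' := by rw [← mul_sum, ← sum_mul, sum_wt, one_mul]
  have hcol : ∀ a : Fin q, ∑ c : V → Fin q, (∏ _x : V, (1 / (q : ℝ))) *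
      fail J A (fun x => decide (c x = a)) ≤ 1 / (2 * q) := by
    intro a
    rw [push_sum (fun b => decide (b = a)) (fun _ => 1 / (q : ℝ))]
    refine le_of_eq_of_le ?_ hq2
    refine sum_congr rfl fun d _ => ?_
    congr 1
    refine prod_congr rfl fun x _ => ?_
    cases d x
    · simp [filter_ne', Nat.cast_sub hq]; field_simp
    · simp [filter_eq']
  by_contra hcon
  push Not at hcon
  have hbad : ∀ c : V → Fin q, (1 : ℝ) ≤ ∑ a, fail J A (fun x => decide (c x = a)) := by
    intro c
    have : ∃ a, ¬ ∃ i ∈ J, A i ⊆ supp (fun x => decide (c x = a)) := by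
      by_contra hall
      push Not at hall
      choose g hg using hall
      obtain ⟨a, ha⟩ := hcon c g
      obtain ⟨x, hx, hne⟩ := ha (hg a).1
      exact hne (by simpa [supp] using (hg a).2 hx)
    obtain ⟨a, ha⟩ := this
    refine le_trans (le_of_eq ?_) (single_le_sum (fun b _ => fail_nonneg _ _ _) (mem_univ a))
    rw [fail, if_neg ha]
  have h1 : (1 : ℝ) ≤ ∑ c : V → Fin q, (∏ _x : V, (1 / (q : ℝ))) *
      ∑ a, fail J A (fun x => decide (c x = a)) := by
    refine le_trans (le_of_eq ?_) (sum_le_sum fun c _ =>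
      le_mul_of_one_le_right (by positivity) (hbad c))
    rw [← Fintype.prod_sum (fun (_ : V) (_ : Fin q) => 1 / (q : ℝ))]
    simp [show (q : ℝ) * (q : ℝ)⁻¹ = 1 from mul_inv_cancel₀ (by linarith)]
  simp_rw [mul_sum] at h1
  rw [sum_comm] at h1
  have h2 := h1.trans (sum_le_sum fun a _ => hcol a)
  simp only [sum_const, card_univ, Fintype.card_fin, nsmul_eq_mul] at h2
  have : (q : ℝ) * (1 / (2 * q)) = 1 / 2 := by field_simp
  linarith

/-- Pigeonhole plus spreadness: `q` disjoint sets of equal size and equal vector sum. -/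
theorem equal_sum_parts {Ω : Type*} [Fintype Ω] [DecidableEq Ω] {κ : Type*} [Fintype κ]
    [DecidableEq κ] (φ : Ω → κ → ℤ) (hφ : ∀ x k, |φ x k| ≤ 1) {q L s : ℕ} (hq : 0 < q)
    (hL : 0 < L) (hsL : s < 2 ^ L) (hR : (2 * s + 1) ^ Fintype.card κ < 2 ^ s) (U : Finset Ω)
    (hU : 2 * (4 * (q * L) ^ 2) * s + s ≤ U.card) :
    ∃ P : Fin q → Finset Ω, (∀ a, P a ⊆ U) ∧ (∀ a, (P a).Nonempty) ∧
      (∀ a b, a ≠ b → Disjoint (P a) (P b)) ∧
      ∀ a b, (P a).card = (P b).card ∧ ∀ k, ∑ x ∈ P a, φ x k = ∑ x ∈ P b, φ x k := by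
  classical
  set r := 4 * (q * L) ^ 2 with hr
  set Fam := U.powersetCard s
  set tgt : Finset (κ → ℤ) := Fintype.piFinset fun _ => Finset.Icc (-(s : ℤ)) s
  have hmaps : ∀ S ∈ Fam, (fun k => ∑ x ∈ S, φ x k) ∈ tgt := by
    intro S hS
    obtain ⟨-, hc⟩ := mem_powersetCard.mp hS
    refine Fintype.mem_piFinset.mpr fun k => mem_Icc.mpr (abs_le.mp ?_)
    refine (abs_sum_le_sum_abs _ _).trans ((sum_le_card_nsmul _ _ 1 fun x _ => hφ x k).trans ?_)
    simp [hc]
  have htgt : tgt.card = (2 * s + 1) ^ Fintype.card κ := by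
    simp only [tgt, Fintype.card_piFinset, Int.card_Icc, prod_const, card_univ]
    congr 1; omega
  have hfam : (2 * r) ^ s ≤ Fam.card := by
    rw [card_powersetCard]
    rcases Nat.eq_zero_or_pos s with h | hs
    · simp [h]
    have h1 : (U.card + 1 - s) ^ s ≤ s.factorial * U.card.choose s := by
      rw [← Nat.descFactorial_eq_factorial_mul_choose]; exact Nat.pow_sub_le_descFactorial _ _
    have h2 : s.factorial ≤ s ^ s := Nat.factorial_le_pow s
    have h3 : (2 * r) ^ s * s ^ s ≤ U.card.choose s * s ^ s := by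
      rw [← mul_pow]
      refine (Nat.pow_le_pow_left (by omega : 2 * r * s ≤ U.card + 1 - s) s).trans (h1.trans ?_)
      rw [mul_comm (U.card.choose s)]
      exact Nat.mul_le_mul_right _ h2
    exact Nat.le_of_mul_le_mul_right h3 (pow_pos hs s)
  have htne : tgt.Nonempty :=
    ⟨0, Fintype.mem_piFinset.mpr fun k => mem_Icc.mpr ⟨by simp, by simp⟩⟩
  obtain ⟨v, -, hv⟩ := exists_le_card_fiber_of_mul_le_card_of_maps_to hmaps htne
    (n := r ^ s + 1) (by
      rw [htgt]
      refine le_trans ?_ hfam
      rw [mul_pow 2 r]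
      have hr2 : 2 ≤ r := by
        have : 1 ≤ (q * L) ^ 2 := Nat.one_le_pow _ _ (Nat.mul_pos hq hL)
        omega
      have hrs : 2 ^ s ≤ r ^ s := Nat.pow_le_pow_left hr2 s
      obtain ⟨e, he⟩ := Nat.exists_eq_add_of_lt hR
      rw [he] at hrs ⊢
      generalize r ^ s = a at hrs ⊢
      generalize (2 * s + 1) ^ Fintype.card κ = R at hrs ⊢
      nlinarith [Nat.zero_le (e * a)])
  set F := Fam.filter fun S => (fun k => ∑ x ∈ S, φ x k) = v
  obtain ⟨Z, -, hZ⟩ := exists_max_image (univ : Finset (Finset Ω))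
    (fun Z => (F.filter fun S => Z ⊆ S).card * r ^ Z.card) univ_nonempty
  set J := F.filter fun S => Z ⊆ S
  have hJ0 : r ^ s < J.card * r ^ Z.card := by
    have := hZ ∅ (mem_univ _)
    simp at this
    omega
  have hJne : J.Nonempty := card_pos.mp (by
    rcases Nat.eq_zero_or_pos J.card with h | h
    · rw [h] at hJ0; simp at hJ0
    · exact h)
  have hmem : ∀ S ∈ J, S ⊆ U ∧ S.card = s ∧ (∀ k, ∑ x ∈ S, φ x k = v k) ∧ Z ⊆ S := by
    intro S hS
    obtain ⟨hSF, hZS⟩ := mem_filter.mp hS
    obtain ⟨hSf, hSv⟩ := mem_filter.mp hSF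
    obtain ⟨h1, h2⟩ := mem_powersetCard.mp hSf
    exact ⟨h1, h2, fun k => congrFun hSv k, hZS⟩
  have hZs : Z.card < s := by
    obtain ⟨S, hS⟩ := hJne
    obtain ⟨-, hc, -, hZS⟩ := hmem S hS
    rcases lt_or_eq_of_le (hc ▸ card_le_card hZS) with h | h
    · exact h
    · exfalso
      have : J ⊆ {Z} := fun S' hS' => by
        obtain ⟨-, hc', -, hZS'⟩ := hmem S' hS'
        exact mem_singleton.mpr (eq_of_subset_of_card_le hZS' (by omega)).symm
      have := card_le_card this
      rw [card_singleton] at this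
      have := Nat.mul_le_mul_right (r ^ Z.card) this
      rw [h] at hJ0 this; omega
  set A : Finset Ω → Finset Ω := fun S => S \ Z
  have hspread : ∀ T : Finset Ω, T.Nonempty →
      (J.filter fun S => T ⊆ A S).card * r ^ T.card ≤ J.card := by
    intro T hT
    by_cases hd : Disjoint Z T
    · have h1 := hZ (Z ∪ T) (mem_univ _)
      rw [card_union_of_disjoint hd, pow_add] at h1
      have h2 : (J.filter fun S => T ⊆ A S).card ≤ (F.filter fun S => Z ∪ T ⊆ S).card := by
        refine card_le_card fun S hS => ?_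
        obtain ⟨hSJ, hTS⟩ := mem_filter.mp hS
        obtain ⟨hSF, hZS⟩ := mem_filter.mp hSJ
        exact mem_filter.mpr ⟨hSF, union_subset hZS (hTS.trans sdiff_subset)⟩
      refine Nat.le_of_mul_le_mul_right (c := r ^ Z.card) ?_ (by positivity)
      refine le_trans (le_of_eq ?_) (le_trans (Nat.mul_le_mul_right (r ^ Z.card * r ^ T.card) h2) h1)
      ring
    · have : (J.filter fun S => T ⊆ A S) = ∅ := by
        refine filter_eq_empty_iff.mpr fun S _ hTS => hd ?_
        exact disjoint_left.mpr fun x hxZ hxT => (mem_sdiff.mp (hTS hxT)).2 hxZ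
      simp [this]
  obtain ⟨c, g, hg⟩ := disjoint_members hq hL J A hJne
    (fun S hS => lt_of_le_of_lt ((card_le_card sdiff_subset).trans_eq (hmem S hS).2.1) hsL) hspread
  refine ⟨fun a => A (g a), fun a => sdiff_subset.trans (hmem _ (hg a).1).1, fun a => ?_,
    fun a b hab => disjoint_left.mpr fun x hxa hxb => hab (((hg a).2 x hxa).symm.trans ((hg b).2 x hxb)),
    fun a b => ?_⟩
  · obtain ⟨-, hc, -, hZS⟩ := hmem _ (hg a).1
    rw [← card_pos, card_sdiff_of_subset hZS]; omega
  · obtain ⟨-, hca, hva, hZa⟩ := hmem _ (hg a).1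
    obtain ⟨-, hcb, hvb, hZb⟩ := hmem _ (hg b).1
    refine ⟨by rw [card_sdiff_of_subset hZa, card_sdiff_of_subset hZb, hca, hcb], fun k => ?_⟩
    rw [sum_sdiff_eq_sub hZa, sum_sdiff_eq_sub hZb, hva k, hvb k]

end Vale.Agent.P047
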