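import Vale.Agent.P047.Basic
import Vale.Agent.P047.Spread

/-!
Labelled partitions of the cube whose signed pieces have low degree, their products, and rounding.
-/

namespace Vale.Agent.P047

open Finset

/-- The sum of the coordinates. -/
def wsum {n : ℕ} (x : Fin n → Bool) : ℝ := ∑ i, sgn (x i)

/-- The integer sum of the coordinates. -/
def isum {n : ℕ} (x : Fin n → Bool) : ℤ := ∑ i, if x i then 1 else -1

lemma wsum_eq {n : ℕ} (x : Fin n → Bool) : wsum x = (isum x : ℝ) := by
  simp only [wsum, isum, sgn, Int.cast_sum]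
  refine sum_congr rfl fun i _ => ?_
  cases x i <;> simp

lemma wsum_append {n₁ n₂ : ℕ} (z : Fin (n₁ + n₂) → Bool) :
    wsum z = wsum (z ∘ Fin.castAdd n₂) + wsum (z ∘ Fin.natAdd n₁) := by
  simp [wsum, Fin.sum_univ_add]

lemma abs_wsum_le {n : ℕ} (x : Fin n → Bool) : |wsum x| ≤ n := by
  refine (abs_sum_le_sum_abs _ _).trans ?_
  refine (sum_le_card_nsmul _ _ 1 fun i _ => ?_).trans (by simp)
  cases x i <;> simp [sgn]

lemma linSum_eq {n : ℕ} (f : (Fin n → Bool) → ℝ) :
    linSum f = (∑ x, f x * wsum x) / 2 ^ n := by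
  simp only [linSum, coef, chi, prod_singleton, wsum, mul_sum, ← sum_div]
  rw [sum_comm]

lemma any_mem_low {n : ℕ} (f : (Fin n → Bool) → ℝ) : f ∈ low n n := by
  refine mem_low f ?_
  classical
  exact Finset.sup_le fun S _ => (card_le_univ S).trans (by simp)

/-- A labelling of the cube: `lab` is the class, `sig` its signing, `phi` an integer statistic. -/
structure Gad (n q : ℕ) (z : (Fin n → Bool) → ℤ) where
  /-- the class of a point -/
  lab : (Fin n → Bool) → (Fin n → Bool)
  /-- the signing -/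
  sig : (Fin n → Bool) → ZMod q
  /-- the well behaved classes -/
  Good : (Fin n → Bool) → Prop
  /-- the statistic -/
  phi : (Fin n → Bool) → ℤ
  uniform : ∀ l, Good l → ∀ g g' : ZMod q,
    (univ.filter fun x => lab x = l ∧ sig x = g).card
      = (univ.filter fun x => lab x = l ∧ sig x = g').card
  same : ∀ x y, Good (lab x) → lab x = lab y → wsum x = wsum y
  stat : ∀ x, Good (lab x) → phi (lab x) = z x

/-- The indicator of one signed piece. -/
def Gad.ind {n q : ℕ} {z : (Fin n → Bool) → ℤ} (G : Gad n q z) (l : Fin n → Bool) (g : ZMod q) :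
    (Fin n → Bool) → ℝ := fun x => if G.lab x = l ∧ G.sig x = g then 1 else 0

/-- The signed pieces of the class `l` differ by functions of degree at most `A`. -/
def Gad.DiffLE {n q : ℕ} {z : (Fin n → Bool) → ℤ} (G : Gad n q z) (l : Fin n → Bool) (A : ℕ) :
    Prop := ∀ g g' : ZMod q, G.ind l g - G.ind l g' ∈ low n A

/-- At most the fraction `p` of the points lies in a bad class. -/
def Gad.BadLE {n q : ℕ} {z : (Fin n → Bool) → ℤ} (G : Gad n q z) (p : ℝ) : Prop :=
  by classical exact ((univ.filter fun x => ¬ G.Good (G.lab x)).card : ℝ) ≤ p * 2 ^ n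

/-- The statistic has degree at most `M`. -/
def Gad.PhiLE {n q : ℕ} {z : (Fin n → Bool) → ℤ} (G : Gad n q z) (M : ℕ) : Prop :=
  (fun x => (G.phi (G.lab x) : ℝ)) ∈ low n M

lemma card_split {n₁ n₂ : ℕ} (p : (Fin n₁ → Bool) → Prop) (r : (Fin n₂ → Bool) → Prop)
    [DecidablePred p] [DecidablePred r] :
    (univ.filter fun z : Fin (n₁ + n₂) → Bool =>
      p (z ∘ Fin.castAdd n₂) ∧ r (z ∘ Fin.natAdd n₁)).card
      = (univ.filter p).card * (univ.filter r).card := by
  rw [← card_product]
  refine card_nbij' (fun z => (z ∘ Fin.castAdd n₂, z ∘ Fin.natAdd n₁))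
    (fun uv => Fin.append uv.1 uv.2) ?_ ?_ ?_ ?_
  · intro z hz; simpa using hz
  · intro uv h
    have e1 : Fin.append uv.1 uv.2 ∘ Fin.castAdd n₂ = uv.1 := funext fun i => Fin.append_left _ _ i
    have e2 : Fin.append uv.1 uv.2 ∘ Fin.natAdd n₁ = uv.2 := funext fun i => Fin.append_right _ _ i
    simp_all
  · intro z _; exact Fin.append_castAdd_natAdd
  · intro uv _
    exact Prod.ext (funext fun i => Fin.append_left _ _ i) (funext fun i => Fin.append_right _ _ i)

/-- Product of two labellings; the second one is read only in the classes in `C`. -/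
lemma exists_product {n₁ n₂ q : ℕ} [NeZero q] {z₁ : (Fin n₁ → Bool) → ℤ}
    {z₂ : (Fin n₂ → Bool) → ℤ} (G₁ : Gad n₁ q z₁) (G₂ : Gad n₂ q z₂)
    (C : (Fin n₁ → Bool) → Prop) (hC : ∀ l, G₁.Good l → C l) {a b A : ℕ} {p₁ p₂ : ℝ}
    (ha : ∀ l, C l → G₁.DiffLE l a) (hb : ∀ l, ¬ C l → G₁.DiffLE l b)
    (hA : ∀ l, G₂.DiffLE l A) (hp₁ : G₁.BadLE p₁) (hp₂ : G₂.BadLE p₂) :
    ∃ G : Gad (n₁ + n₂) q (fun z => z₁ (z ∘ Fin.castAdd n₂) + z₂ (z ∘ Fin.natAdd n₁)),
      (∀ l, G.DiffLE l (max (a + A) b)) ∧ G.BadLE (p₁ + p₂) ∧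
      ((∀ l, C l) → ∀ M, G₁.PhiLE M → G₂.PhiLE M → G.PhiLE M) ∧
      (∀ b₁ b₂ : ℤ, (∀ l, |G₁.phi l| ≤ b₁) → (∀ l, |G₂.phi l| ≤ b₂) → ∀ l, |G.phi l| ≤ b₁ + b₂) := by
  classical
  let e₁ : (Fin (n₁ + n₂) → Bool) → (Fin n₁ → Bool) := fun z => z ∘ Fin.castAdd n₂
  let e₂ : (Fin (n₁ + n₂) → Bool) → (Fin n₂ → Bool) := fun z => z ∘ Fin.natAdd n₁
  let lab : (Fin (n₁ + n₂) → Bool) → (Fin (n₁ + n₂) → Bool) := fun z =>
    Fin.append (G₁.lab (e₁ z)) (if C (G₁.lab (e₁ z)) then G₂.lab (e₂ z) else fun _ => false)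
  let sig : (Fin (n₁ + n₂) → Bool) → ZMod q := fun z =>
    G₁.sig (e₁ z) + (if C (G₁.lab (e₁ z)) then G₂.sig (e₂ z) else 0)
  let Good : (Fin (n₁ + n₂) → Bool) → Prop := fun l =>
    C (e₁ l) ∧ G₁.Good (e₁ l) ∧ G₂.Good (e₂ l)
  let phi : (Fin (n₁ + n₂) → Bool) → ℤ := fun l =>
    G₁.phi (e₁ l) + (if C (e₁ l) then G₂.phi (e₂ l) else 0)
  have hl₁ : ∀ z, e₁ (lab z) = G₁.lab (e₁ z) := fun z => funext fun i => Fin.append_left _ _ i
  have hl₂ : ∀ z, C (G₁.lab (e₁ z)) → e₂ (lab z) = G₂.lab (e₂ z) := fun z hz => by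
    funext i
    simp only [e₂, lab, Function.comp_apply, Fin.append_right]
    rw [if_pos hz]
  have hiff : ∀ z l g, (lab z = l ∧ sig z = g) ↔
      (G₁.lab (e₁ z) = e₁ l ∧
        if C (e₁ l) then G₂.lab (e₂ z) = e₂ l ∧ G₁.sig (e₁ z) + G₂.sig (e₂ z) = g
        else (fun _ => false) = e₂ l ∧ G₁.sig (e₁ z) = g) := by
    intro z l g
    have hl : lab z = l ↔ G₁.lab (e₁ z) = e₁ l ∧
        (if C (G₁.lab (e₁ z)) then G₂.lab (e₂ z) else fun _ => false) = e₂ l := by
      constructor
      · intro h; rw [← h]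
        exact ⟨(hl₁ z).symm, funext fun i => (Fin.append_right _ _ i).symm⟩
      · rintro ⟨h1, h2⟩
        simp only [lab]
        rw [h2, h1]; exact Fin.append_castAdd_natAdd
    rw [hl, and_assoc]
    refine and_congr_right fun h => ?_
    simp only [sig, h]
    split <;> simp
  refine ⟨⟨lab, sig, Good, phi, ?_, ?_, ?_⟩, ?_, ?_, ?_, ?_⟩
  · -- uniformity
    rintro l ⟨hc, hg₁, hg₂⟩ g g'
    have cnt : ∀ g, (univ.filter fun z => lab z = l ∧ sig z = g).card = ∑ h : ZMod q,
        (univ.filter fun x => G₁.lab x = e₁ l ∧ G₁.sig x = h).card *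
          (univ.filter fun y => G₂.lab y = e₂ l ∧ G₂.sig y = g - h).card := by
      intro g
      simp_rw [← card_split]
      rw [← card_biUnion]
      · congr 1; ext z
        simp only [mem_filter, mem_univ, true_and, mem_biUnion, hiff, if_pos hc]
        exact ⟨fun ⟨h1, h2, h3⟩ => ⟨_, ⟨h1, rfl⟩, h2, eq_sub_of_add_eq' h3⟩,
          fun ⟨h, ⟨h1, h2⟩, h3, h4⟩ => ⟨h1, h3, by
            show G₁.sig (e₁ z) + G₂.sig (e₂ z) = g
            have h2' : G₁.sig (e₁ z) = h := h2
            have h4' : G₂.sig (e₂ z) = g - h := h4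
            rw [h2', h4', add_sub_cancel]⟩⟩
      · intro h _ h' _ hne
        simp only [Function.onFun, disjoint_left, mem_filter, mem_univ, true_and]
        rintro z ⟨⟨-, rfl⟩, -⟩ ⟨⟨-, rfl⟩, -⟩
        exact hne rfl
    rw [cnt, cnt]
    exact sum_congr rfl fun h _ => by rw [G₂.uniform _ hg₂ (g - h) (g' - h)]
  · -- constant sum
    intro x y hx hxy
    obtain ⟨hc, hg₁, hg₂⟩ := hx
    rw [hl₁] at hc hg₁
    rw [hl₂ x hc] at hg₂
    have h1 : G₁.lab (e₁ x) = G₁.lab (e₁ y) := by rw [← hl₁, ← hl₁, hxy]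
    have h2 : G₂.lab (e₂ x) = G₂.lab (e₂ y) := by rw [← hl₂ x hc, ← hl₂ y (h1 ▸ hc), hxy]
    rw [wsum_append x, wsum_append y]
    exact congrArg₂ (· + ·) (G₁.same _ _ hg₁ h1) (G₂.same _ _ hg₂ h2)
  · -- statistic
    intro x hx
    obtain ⟨hc, hg₁, hg₂⟩ := hx
    rw [hl₁] at hc hg₁
    rw [hl₂ x hc] at hg₂
    simp only [phi, hl₁, if_pos hc, hl₂ x hc, G₁.stat _ hg₁, G₂.stat _ hg₂]
    rfl
  · -- differences
    intro l g g'
    by_cases hc : C (e₁ l)
    · have key : ∀ g, (fun z : Fin (n₁ + n₂) → Bool =>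
          if lab z = l ∧ sig z = g then (1 : ℝ) else 0) = ∑ h : ZMod q,
            (fun z => G₁.ind (e₁ l) h (e₁ z)) * (fun z => G₂.ind (e₂ l) (g - h) (e₂ z)) := by
        intro g; ext z
        simp only [Finset.sum_apply, Pi.mul_apply, Gad.ind, hiff, if_pos hc]
        rw [sum_eq_single (G₁.sig (e₁ z))]
        · by_cases h1 : G₁.lab (e₁ z) = e₁ l
          · simp only [h1, true_and, if_true, one_mul]
            refine if_congr (and_congr_right fun _ => ?_) rfl rfl
            rw [eq_sub_iff_add_eq']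
          · simp [h1]
        · intro h _ hne; simp [Ne.symm hne]
        · simp
      show (fun z : Fin (n₁ + n₂) → Bool => if lab z = l ∧ sig z = g then (1 : ℝ) else 0)
          - (fun z => if lab z = l ∧ sig z = g' then (1 : ℝ) else 0) ∈ _
      rw [key, key]
      have h0 : ∑ h : ZMod q, (fun z => G₂.ind (e₂ l) (g - h) (e₂ z))
          = ∑ h : ZMod q, (fun z => G₂.ind (e₂ l) (g' - h) (e₂ z)) := by
        exact ((Equiv.subLeft g).sum_comp (fun h : ZMod q => fun z => G₂.ind (e₂ l) h (e₂ z))).trans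
          ((Equiv.subLeft g').sum_comp (fun h : ZMod q => fun z => G₂.ind (e₂ l) h (e₂ z))).symm
      have e : (∑ h : ZMod q, (fun z => G₁.ind (e₁ l) h (e₁ z)) *
            (fun z => G₂.ind (e₂ l) (g - h) (e₂ z))) - (∑ h : ZMod q,
            (fun z => G₁.ind (e₁ l) h (e₁ z)) * (fun z => G₂.ind (e₂ l) (g' - h) (e₂ z)))
          = ∑ h : ZMod q, ((fun z => G₁.ind (e₁ l) h (e₁ z)) - (fun z => G₁.ind (e₁ l) 0 (e₁ z))) *
              ((fun z => G₂.ind (e₂ l) (g - h) (e₂ z)) - (fun z => G₂.ind (e₂ l) (g' - h) (e₂ z))) := by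
        simp only [sub_mul, mul_sub, sum_sub_distrib, ← mul_sum, h0]
        ring
      rw [e]
      refine Submodule.sum_mem _ fun h _ => low_mono (le_max_left _ _) (mul_mem_low ?_ ?_)
      · exact rename_mem _ (Fin.castAdd_injective n₁ n₂) (ha _ hc h 0)
      · exact rename_mem _ (Fin.natAdd_injective n₂ n₁) (hA _ (g - h) (g' - h))
    · by_cases hd : (fun _ => false) = e₂ l
      · have key : ∀ g, (fun z : Fin (n₁ + n₂) → Bool =>
            if lab z = l ∧ sig z = g then (1 : ℝ) else 0) = fun z => G₁.ind (e₁ l) g (e₁ z) := by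
          intro g; ext z; simp only [Gad.ind, hiff, if_neg hc, hd, true_and]
        show (fun z : Fin (n₁ + n₂) → Bool => if lab z = l ∧ sig z = g then (1 : ℝ) else 0)
            - (fun z => if lab z = l ∧ sig z = g' then (1 : ℝ) else 0) ∈ _
        rw [key, key]
        exact low_mono (le_max_right _ _)
          (rename_mem _ (Fin.castAdd_injective n₁ n₂) (hb _ hc g g'))
      · have key : ∀ g, (fun z : Fin (n₁ + n₂) → Bool =>
            if lab z = l ∧ sig z = g then (1 : ℝ) else 0) = 0 := by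
          intro g; ext z; simp [hiff, if_neg hc, hd]
        show (fun z : Fin (n₁ + n₂) → Bool => if lab z = l ∧ sig z = g then (1 : ℝ) else 0)
            - (fun z => if lab z = l ∧ sig z = g' then (1 : ℝ) else 0) ∈ _
        rw [key, key]; simp
  · -- bad points
    suffices hh : ((univ.filter fun x => ¬ Good (lab x)).card : ℝ) ≤ (p₁ + p₂) * 2 ^ (n₁ + n₂) by
      unfold Gad.BadLE
      convert hh using 4
    have hsub : (univ.filter fun x => ¬ Good (lab x)) ⊆
        (univ.filter fun z : Fin (n₁ + n₂) → Bool =>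
          ¬ G₁.Good (G₁.lab (z ∘ Fin.castAdd n₂)) ∧ True) ∪
        (univ.filter fun z : Fin (n₁ + n₂) → Bool =>
          True ∧ ¬ G₂.Good (G₂.lab (z ∘ Fin.natAdd n₁))) := by
      intro z hz
      simp only [mem_filter, mem_univ, true_and, and_true, mem_union] at hz ⊢
      by_contra hcon
      push Not at hcon
      refine hz ⟨?_, ?_, ?_⟩ <;> first | rw [hl₁] | skip
      · exact hC _ hcon.1
      · exact hcon.1
      · rw [hl₂ z (hC _ hcon.1)]; exact hcon.2
    refine (Nat.cast_le.mpr ((card_le_card hsub).trans (card_union_le _ _))).trans ?_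
    rw [Nat.cast_add, card_split (fun u => ¬ G₁.Good (G₁.lab u)) (fun _ => True),
      card_split (fun _ => True) (fun v => ¬ G₂.Good (G₂.lab v))]
    simp only [filter_true, card_univ, Fintype.card_fun, Fintype.card_bool, Fintype.card_fin]
    unfold Gad.BadLE at hp₁ hp₂
    push_cast
    rw [pow_add]
    nlinarith [mul_le_mul_of_nonneg_right hp₁ (show (0 : ℝ) ≤ 2 ^ n₂ by positivity),
      mul_le_mul_of_nonneg_right hp₂ (show (0 : ℝ) ≤ 2 ^ n₁ by positivity)]
  · -- degree of the statistic
    intro hall M h₁ h₂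
    have : (fun x => (phi (lab x) : ℝ)) = (fun z => (G₁.phi (G₁.lab (e₁ z)) : ℝ))
        + (fun z => (G₂.phi (G₂.lab (e₂ z)) : ℝ)) := by
      ext z
      simp [phi, hl₁, if_pos (hall _), hl₂ z (hall _)]
    show (fun x => (phi (lab x) : ℝ)) ∈ low (n₁ + n₂) M
    rw [this]
    exact add_mem (rename_mem _ (Fin.castAdd_injective n₁ n₂) h₁)
      (rename_mem _ (Fin.natAdd_injective n₂ n₁) h₂)
  · -- bound on the statistic
    intro b₁ b₂ h₁ h₂ l
    show |phi l| ≤ b₁ + b₂
    refine (abs_add_le _ _).trans (add_le_add (h₁ _) ?_)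
    split
    · exact h₂ _
    · simpa using (abs_nonneg _).trans (h₂ fun _ => false)

/-- The integer character of a set. -/
def ichi {m : ℕ} (S : Finset (Fin m)) (x : Fin m → Bool) : ℤ := ∏ i ∈ S, if x i then 1 else -1

lemma ichi_cast {m : ℕ} (S : Finset (Fin m)) (x : Fin m → Bool) :
    (ichi S x : ℝ) = chi S x := by
  simp only [ichi, chi, sgn, Int.cast_prod]
  refine prod_congr rfl fun i _ => ?_
  cases x i <;> simp

/-- One block: pieces inside weight slices, up to few exceptional points. -/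
lemma exists_block {m a q L s : ℕ} [NeZero q] (hL : 0 < L) (hsL : s < 2 ^ L)
    (hR : (2 * s + 1) ^ (univ.filter fun S : Finset (Fin m) => a < S.card).card < 2 ^ s)
    (φ : (Fin m → Bool) → ℤ) (hφ : ∀ x y, isum x = isum y → φ x = φ y) :
    ∃ G : Gad m q φ, (∀ l, G.Good l → G.DiffLE l a) ∧
      G.BadLE ((2 * m + 1) * (2 * (4 * (q * L) ^ 2) * s + s + 1 : ℝ) / 2 ^ m) ∧ G.phi = φ := by
  classical
  set Θ := 2 * (4 * (q * L) ^ 2) * s + s with hΘ
  have hq : 0 < q := Nat.pos_of_ne_zero (NeZero.ne q)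
  -- recursive extraction
  have main : ∀ U : Finset (Fin m → Bool), ∃ (lab : (Fin m → Bool) → (Fin m → Bool))
      (sig : (Fin m → Bool) → ZMod q) (R : Finset (Fin m → Bool)),
      R.card ≤ (2 * m + 1) * (Θ + 1) ∧ (∀ x ∈ U, lab x ∈ U) ∧
      (∀ x ∈ U, lab x ∈ R → lab x = x) ∧
      (∀ x ∈ U, lab x ∉ R → isum x = isum (lab x)) ∧
      ∀ l, l ∉ R → ∀ g g' : ZMod q,
        (U.filter fun x => lab x = l ∧ sig x = g).card
            = (U.filter fun x => lab x = l ∧ sig x = g').card ∧
        ∀ S : Finset (Fin m), a < S.card →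
          ∑ x ∈ U.filter (fun x => lab x = l ∧ sig x = g), ichi S x
            = ∑ x ∈ U.filter (fun x => lab x = l ∧ sig x = g'), ichi S x := by
    intro U
    induction U using Finset.strongInduction with
    | _ U ih =>
    by_cases hU : U.card ≤ (2 * m + 1) * (Θ + 1)
    · refine ⟨id, fun _ => 0, U, hU, fun x hx => hx, fun x _ _ => rfl,
        fun x hx h => absurd hx h, fun l hl g g' => ?_⟩
      have : ∀ g : ZMod q, (U.filter fun x => x = l ∧ (0 : ZMod q) = g) = ∅ := fun g =>
        filter_eq_empty_iff.mpr fun x hx h => hl (h.1 ▸ hx)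
      simp only [id_eq, this]; simp
    push Not at hU
    have hmem : ∀ x ∈ U, isum x ∈ Finset.Icc (-(m : ℤ)) m := fun x _ => by
      refine mem_Icc.mpr (abs_le.mp ((abs_sum_le_sum_abs _ _).trans ?_))
      refine (sum_le_card_nsmul _ _ 1 fun i _ => ?_).trans (by simp)
      cases x i <;> simp
    obtain ⟨w, -, hw⟩ := exists_lt_card_fiber_of_mul_lt_card_of_maps_to hmem (n := Θ) (by
      rw [Int.card_Icc, show ((m : ℤ) + 1 - -(m : ℤ)).toNat = 2 * m + 1 by omega]
      have : (2 * m + 1) * Θ ≤ (2 * m + 1) * (Θ + 1) := Nat.mul_le_mul_left _ (by omega)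
      omega)
    obtain ⟨P, hPU, hPne, hPd, hPeq⟩ := equal_sum_parts
      (fun (x : Fin m → Bool) (S : {S : Finset (Fin m) // a < S.card}) => ichi S.1 x)
      (fun x S => by
        simp only [ichi, Finset.abs_prod]
        exact le_of_eq (prod_eq_one fun i _ => by cases x i <;> simp))
      hq hL hsL (by rwa [Fintype.card_subtype]) (U.filter fun x => isum x = w) hw.le
    set Un := univ.biUnion P
    have hUnU : Un ⊆ U := biUnion_subset.mpr fun b _ => (hPU b).trans (filter_subset _ _)
    obtain ⟨l₀, hl₀⟩ := hPne ⟨0, hq⟩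
    have hl₀Un : l₀ ∈ Un := mem_biUnion.mpr ⟨_, mem_univ _, hl₀⟩
    obtain ⟨lab', sig', R, hR', hlU, hlR, hlW, hlM⟩ := ih (U \ Un)
      (sdiff_ssubset hUnU ⟨l₀, hl₀Un⟩)
    have hex : ∀ x ∈ Un, ∃ b, x ∈ P b := fun x hx => by
      obtain ⟨b, -, hb⟩ := mem_biUnion.mp hx; exact ⟨b, hb⟩
    choose! part hpart using hex
    have huniq : ∀ x ∈ Un, ∀ b, x ∈ P b → part x = b := fun x hx b hb => by
      by_contra hne; exact disjoint_left.mp (hPd _ _ hne) (hpart x hx) hb
    set R₂ := R ∩ (U \ Un)
    refine ⟨fun x => if x ∈ Un then l₀ else lab' x,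
      fun x => if x ∈ Un then ((part x : Fin q).val : ZMod q) else sig' x, R₂,
      (card_le_card inter_subset_left).trans hR', fun x hx => ?_, fun x hx h => ?_,
      fun x hx h => ?_, fun l hl g g' => ?_⟩
    · dsimp only; split
      · exact hUnU hl₀Un
      · next hn => exact (mem_sdiff.mp (hlU x (mem_sdiff.mpr ⟨hx, hn⟩))).1
    · dsimp only at h ⊢
      split at h
      · exact absurd hl₀Un (mem_sdiff.mp (mem_inter.mp h).2).2
      · next hn => rw [if_neg hn]; exact hlR x (mem_sdiff.mpr ⟨hx, hn⟩) (mem_inter.mp h).1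
    · dsimp only at h ⊢
      split
      · next hn =>
        rw [(mem_filter.mp (hPU _ (hpart x hn))).2, (mem_filter.mp (hPU _ hl₀)).2]
      · next hn =>
        rw [if_neg hn] at h
        exact hlW x (mem_sdiff.mpr ⟨hx, hn⟩) fun hh =>
          h (mem_inter.mpr ⟨hh, hlU x (mem_sdiff.mpr ⟨hx, hn⟩)⟩)
    · by_cases hll : l = l₀
      · subst hll
        have hset : ∀ g : ZMod q, (U.filter fun x =>
            (if x ∈ Un then l else lab' x) = l ∧
              (if x ∈ Un then ((part x : Fin q).val : ZMod q) else sig' x) = g)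
            = P ⟨g.val, ZMod.val_lt g⟩ := by
          intro g; ext x
          simp only [mem_filter]
          constructor
          · rintro ⟨hx, h1, h2⟩
            by_cases hn : x ∈ Un
            · rw [if_pos hn] at h2
              have := hpart x hn
              convert this using 2
              apply Fin.ext
              show g.val = _
              rw [← h2, ZMod.val_natCast_of_lt (part x).isLt]
            · rw [if_neg hn] at h1
              exact absurd hl₀Un (h1 ▸ (mem_sdiff.mp (hlU x (mem_sdiff.mpr ⟨hx, hn⟩))).2)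
          · intro hx
            have hn : x ∈ Un := mem_biUnion.mpr ⟨_, mem_univ _, hx⟩
            refine ⟨hUnU hn, ?_, ?_⟩
            · rw [if_pos hn]
            · rw [if_pos hn, huniq x hn _ hx]; simp
        dsimp only
        rw [hset, hset]
        exact ⟨(hPeq _ _).1, fun S hS => (hPeq _ _).2 ⟨S, hS⟩⟩
      · have hset : ∀ g : ZMod q, (U.filter fun x =>
            (if x ∈ Un then l₀ else lab' x) = l ∧
              (if x ∈ Un then ((part x : Fin q).val : ZMod q) else sig' x) = g)
            = (U \ Un).filter fun x => lab' x = l ∧ sig' x = g := by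
          intro g; ext x
          by_cases hn : x ∈ Un <;> simp [hn, Ne.symm hll]
        dsimp only
        rw [hset, hset]
        by_cases hlR2 : l ∈ R
        · have he : ∀ g : ZMod q, ((U \ Un).filter fun x => lab' x = l ∧ sig' x = g) = ∅ := fun g =>
            filter_eq_empty_iff.mpr fun x hx h =>
              hl (mem_inter.mpr ⟨hlR2, h.1 ▸ hlU x hx⟩)
          simp [he]
        · exact hlM l hlR2 g g'
  obtain ⟨lab, sig, R, hRc, -, hlR, hlW, hlM⟩ := main univ
  refine ⟨⟨lab, sig, fun l => l ∉ R, φ, fun l hl g g' => (hlM l hl g g').1,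
    fun x y hx hxy => ?_, fun x hx => (hφ _ _ (hlW x (mem_univ x) hx)).symm⟩, ?_, ?_, rfl⟩
  · rw [wsum_eq, wsum_eq, hlW x (mem_univ x) hx, hlW y (mem_univ y) (hxy ▸ hx), hxy]
  · intro l hl g g'
    refine mem_low _ ?_
    refine Finset.sup_le fun S hS => ?_
    by_contra hlt
    push Not at hlt
    refine (mem_filter.mp hS).2 ?_
    have key : ∀ g : ZMod q, ∑ x, (if lab x = l ∧ sig x = g then (1 : ℝ) else 0) * chi S x
        = ((∑ x ∈ univ.filter (fun x => lab x = l ∧ sig x = g), ichi S x : ℤ) : ℝ) := by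
      intro g; simp [ite_mul, sum_filter, ichi_cast]
    simp only [coef, Gad.ind, Pi.sub_apply, sub_mul, sum_sub_distrib, key,
      (hlM l hl g g').2 S hlt, sub_self, zero_div]
  · suffices hh : ((univ.filter fun x => ¬ lab x ∉ R).card : ℝ)
        ≤ (2 * m + 1) * (2 * (4 * (q * L) ^ 2) * s + s + 1 : ℝ) / 2 ^ m * 2 ^ m by
      unfold Gad.BadLE
      convert hh using 4
    have hsub : (univ.filter fun x => ¬ lab x ∉ R) ⊆ R := fun x hx => by
      simp only [mem_filter, mem_univ, true_and, not_not] at hx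
      rw [← hlR x (mem_univ x) hx]; exact hx
    rw [div_mul_cancel₀ _ (by positivity)]
    refine (Nat.cast_le.mpr ((card_le_card hsub).trans hRc)).trans (le_of_eq ?_)
    rw [hΘ]; push_cast; ring

/-- Exact rounding of a low-degree function of the statistic by the signing. -/
lemma exists_round {n q : ℕ} [NeZero q] {z : (Fin n → Bool) → ℤ} (G : Gad n q z) {A M : ℕ} {p : ℝ}
    (hA : ∀ l, G.DiffLE l A) (hM : G.PhiLE M) (hp : G.BadLE p) (P : Polynomial ℝ)
    (T : ℤ → ℕ) (hT : ∀ w ∈ univ.image (fun x => G.phi (G.lab x)),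
      T w ≤ q ∧ P.eval (w : ℝ) = 2 * (T w : ℝ) / q - 1) :
    ∃ f : (Fin n → Bool) → ℝ, IsBoolean f ∧ deg f ≤ max A (P.natDegree * M) ∧
      (∑ x, P.eval (z x : ℝ) * wsum x) / 2 ^ n - (2 + |P.eval 0|) * n * p
        - n * (∑ x ∈ univ.filter (fun x => ¬ |P.eval (z x : ℝ)| ≤ 1), |P.eval (z x : ℝ)|) / 2 ^ n
        ≤ linSum f := by
  classical
  have hq : (0 : ℝ) < q := by exact_mod_cast Nat.pos_of_ne_zero (NeZero.ne q)
  set T' : (Fin n → Bool) → ℕ := fun l => min q (T (G.phi l)) with hT'
  set F : (Fin n → Bool) → ZMod q → ℝ := fun l g => if g.val < T' l then 1 else -1 with hF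
  set avg : (Fin n → Bool) → ℝ := fun l => 2 * (T' l : ℝ) / q - 1 with havg
  have hsumF : ∀ l, ∑ g, F l g = q * avg l := by
    intro l
    have hc : (univ.filter fun g : ZMod q => g.val < T' l).card = T' l := by
      refine (card_nbij' (t := range (T' l)) (fun g => g.val) (fun i => (i : ZMod q))
        ?_ ?_ ?_ ?_).trans (card_range _)
      · intro g hg; simpa using hg
      · intro i hi
        simp only [coe_filter, mem_univ, true_and, Set.mem_setOf_eq]
        simp only [coe_range, Set.mem_Iio] at hi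
        rwa [ZMod.val_natCast_of_lt (lt_of_lt_of_le hi (min_le_left _ _))]
      · intro g _; simp
      · intro i hi
        simp only [coe_range, Set.mem_Iio] at hi
        exact ZMod.val_natCast_of_lt (lt_of_lt_of_le hi (min_le_left _ _))
    have hF' : ∀ g, F l g = 2 * (if g.val < T' l then (1 : ℝ) else 0) - 1 := fun g => by
      simp only [hF]; split <;> norm_num
    simp only [hF', sum_sub_distrib, ← mul_sum, sum_boole, hc, sum_const, card_univ, ZMod.card,
      nsmul_eq_mul, mul_one, havg]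
    field_simp
  set f : (Fin n → Bool) → ℝ := fun x => F (G.lab x) (G.sig x) with hf
  set r : (Fin n → Bool) → ℝ := fun x => avg (G.lab x) with hr
  have hrP : ∀ x, r x = P.eval (G.phi (G.lab x) : ℝ) := fun x => by
    obtain ⟨h1, h2⟩ := hT _ (mem_image_of_mem _ (mem_univ x))
    simp only [hr, havg, hT', min_eq_right h1, h2]
  refine ⟨f, fun x => by simp only [hf, hF]; split <;> simp, ?_, ?_⟩
  · refine deg_le_of_low f ?_
    have hd : f - r = ∑ l, ∑ g, (F l g - avg l) • (G.ind l g - G.ind l 0) := by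
      ext x
      simp only [Finset.sum_apply, Pi.smul_apply, Pi.sub_apply, smul_eq_mul, Gad.ind]
      rw [sum_eq_single (G.lab x)]
      · simp only [true_and, mul_sub, sum_sub_distrib, ← sum_mul, hsumF, sum_const, card_univ,
          ZMod.card, nsmul_eq_mul, sub_self, zero_mul, sub_zero]
        rw [sum_eq_single (G.sig x) (fun g _ h => by simp [Ne.symm h]) (by simp)]
        simp [hf, hr]
      · intro l _ hl; simp [Ne.symm hl]
      · simp
    have h1 : f - r ∈ low n A := by
      rw [hd]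
      exact Submodule.sum_mem _ fun l _ => Submodule.sum_mem _ fun g _ =>
        Submodule.smul_mem _ _ (hA l g 0)
    have h2 : r ∈ low n (P.natDegree * M) := by
      have : r = ∑ k ∈ range (P.natDegree + 1),
          P.coeff k • ∏ _i ∈ range k, (fun x => (G.phi (G.lab x) : ℝ)) := by
        ext x; simp [hrP, Polynomial.eval_eq_sum_range]
      rw [this]
      refine Submodule.sum_mem _ fun k hk => Submodule.smul_mem _ _ ?_
      refine low_mono (Nat.mul_le_mul_right M (Nat.lt_succ_iff.mp (mem_range.mp hk))) ?_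
      simpa using prod_mem_low (range k) (fun _ => fun x => (G.phi (G.lab x) : ℝ)) fun _ => hM
    have := add_mem (low_mono (le_max_left A (P.natDegree * M)) h1)
      (low_mono (le_max_right A (P.natDegree * M)) h2)
    rwa [sub_add_cancel] at this
  · -- correlation
    have hgood : ∀ l, G.Good l → ∑ x ∈ univ.filter (fun x => G.lab x = l), (f x - r x) * wsum x
        = 0 := by
      intro l hl
      rcases (univ.filter fun x => G.lab x = l).eq_empty_or_nonempty with h | ⟨x0, hx0⟩
      · simp [h]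
      simp only [mem_filter, mem_univ, true_and] at hx0
      have hw : ∀ x ∈ univ.filter (fun x => G.lab x = l),
          (f x - r x) * wsum x = (F l (G.sig x) - avg l) * wsum x0 := by
        intro x hx
        simp only [mem_filter, mem_univ, true_and] at hx
        simp only [hf, hr, hx, G.same x x0 (by rw [hx]; exact hl) (by rw [hx, hx0])]
      rw [sum_congr rfl hw, ← sum_mul]
      convert zero_mul (wsum x0)
      rw [← sum_fiberwise (univ.filter fun x => G.lab x = l) G.sig]
      have hfib : ∀ g, ∑ x ∈ (univ.filter fun x => G.lab x = l).filter (fun x => G.sig x = g),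
          (F l (G.sig x) - avg l)
          = ((univ.filter fun x => G.lab x = l ∧ G.sig x = 0).card : ℝ) * (F l g - avg l) := by
        intro g
        rw [filter_filter, sum_congr rfl (fun x hx => by rw [(mem_filter.mp hx).2.2]), sum_const,
          nsmul_eq_mul, G.uniform l hl g 0]
      simp_rw [hfib, ← mul_sum, sum_sub_distrib, hsumF]
      simp
    have havg1 : ∀ l, |avg l| ≤ 1 := fun l => by
      have h1 : (T' l : ℝ) ≤ q := by exact_mod_cast min_le_left _ _
      have h2 : (0 : ℝ) ≤ T' l := Nat.cast_nonneg _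
      rw [havg, abs_le]
      constructor
      · have : 0 ≤ 2 * (T' l : ℝ) / q := by positivity
        linarith
      · rw [sub_le_iff_le_add, div_le_iff₀ hq]; linarith
    set B := univ.filter (fun x => ¬ G.Good (G.lab x)) with hB
    have hf1 : ∀ x, |f x| ≤ 1 := fun x => by simp only [hf, hF]; split <;> simp
    have hsame : ∑ x ∈ univ.filter (fun x => G.Good (G.lab x)), (f x - r x) * wsum x = 0 := by
      rw [← sum_fiberwise _ G.lab]
      refine sum_eq_zero fun l _ => ?_
      by_cases hl : G.Good l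
      · rw [filter_filter]
        rw [filter_congr (q := fun x => G.lab x = l) (fun x _ => ⟨fun h => h.2,
          fun h => ⟨h ▸ hl, h⟩⟩)]
        exact hgood l hl
      · refine sum_eq_zero fun x hx => ?_
        obtain ⟨h1, h2⟩ := mem_filter.mp hx
        exact absurd (h2 ▸ (mem_filter.mp h1).2) hl
    have hpt : ∀ x, P.eval (z x : ℝ) * wsum x - (if ¬ G.Good (G.lab x) then (2 + |P.eval 0|) * (n : ℝ) else 0)
        - n * (if ¬ |P.eval (z x : ℝ)| ≤ 1 then |P.eval (z x : ℝ)| else 0)
        - (if G.Good (G.lab x) then (r x - f x) * wsum x else 0) ≤ f x * wsum x := by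
      intro x
      have hw := abs_wsum_le x
      have hn : (0 : ℝ) ≤ n := Nat.cast_nonneg n
      by_cases hg : G.Good (G.lab x)
      · have e : P.eval (z x : ℝ) = r x := by rw [hrP, G.stat x hg]
        have : |r x| ≤ 1 := havg1 _
        simp only [hg, not_true, if_false, if_true, e, this]
        linarith [sub_mul (r x) (f x) (wsum x)]
      · simp only [hg, not_false_iff, if_true, if_false, sub_zero]
        have h3 : P.eval (z x : ℝ) * wsum x ≤ |P.eval (z x : ℝ)| * n := by
          refine (le_abs_self _).trans ?_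
          rw [abs_mul]; exact mul_le_mul_of_nonneg_left hw (abs_nonneg _)
        have h4 : -(n : ℝ) ≤ f x * wsum x := by
          have := neg_abs_le (f x * wsum x)
          rw [abs_mul] at this
          nlinarith [hf1 x, abs_nonneg (wsum x), abs_nonneg (f x)]
        have h5 := abs_nonneg (P.eval (0 : ℝ))
        by_cases hP : |P.eval (z x : ℝ)| ≤ 1
        · simp only [hP, not_true, if_false]; nlinarith
        · simp only [hP, not_false_iff, if_true]; nlinarith
    have := sum_le_sum (s := univ) fun x _ => hpt x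
    simp only [sum_sub_distrib, ← mul_sum, ← sum_filter] at this
    have hswap : ∑ x ∈ univ.filter (fun x => G.Good (G.lab x)), (r x - f x) * wsum x = 0 := by
      rw [← neg_zero, ← hsame, ← sum_neg_distrib]; exact sum_congr rfl fun x _ => by ring
    rw [hswap, sum_const, nsmul_eq_mul, sub_zero] at this
    have hBc : (B.card : ℝ) ≤ p * 2 ^ n := hp
    rw [linSum_eq, le_div_iff₀ (by positivity)]
    have h5 : 0 ≤ (2 + |P.eval 0|) * (n : ℝ) := by positivity
    have := mul_le_mul_of_nonneg_right hBc h5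
    rw [sub_mul, sub_mul, div_mul_cancel₀ _ (by positivity), div_mul_cancel₀ _ (by positivity)]
    nlinarith

end Vale.Agent.P047
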