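import Vale.Agent.P047.Basic

/-!
A bound on the linear sum below the degree, from tilted measures and interpolation.
-/

namespace Vale.Agent.P047

open Finset Polynomial

/-- The restriction of `f` fixing the first coordinate. -/
def restr {n : ℕ} (f : (Fin (n + 1) → Bool) → ℝ) (b : Bool) : (Fin n → Bool) → ℝ :=
  fun y => f (Fin.cons b y)

/-- The mean under the product measure in which every coordinate has mean `e`. -/
noncomputable def mean (e : ℝ) : (n : ℕ) → ((Fin n → Bool) → ℝ) → ℝ
  | 0, f => f Fin.elim0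
  | n + 1, f => (1 + e) / 2 * mean e n (restr f true) + (1 - e) / 2 * mean e n (restr f false)

/-- Half of the difference of the two restrictions. -/
noncomputable def dif {n : ℕ} (f : (Fin (n + 1) → Bool) → ℝ) : (Fin n → Bool) → ℝ :=
  (2⁻¹ : ℝ) • (restr f true - restr f false)

/-- The average of the two restrictions at tilt `e`. -/
noncomputable def avg {n : ℕ} (e : ℝ) (f : (Fin (n + 1) → Bool) → ℝ) : (Fin n → Bool) → ℝ :=
  ((1 + e) / 2) • restr f true + ((1 - e) / 2) • restr f false

/-- The sum over the coordinates of the mean squared derivative. -/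
noncomputable def energy (e : ℝ) : (n : ℕ) → ((Fin n → Bool) → ℝ) → ℝ
  | 0, _ => 0
  | n + 1, f => mean e n (dif f * dif f)
      + ((1 + e) / 2 * energy e n (restr f true) + (1 - e) / 2 * energy e n (restr f false))

lemma mean_add (e : ℝ) : ∀ (n : ℕ) (f g : (Fin n → Bool) → ℝ),
    mean e n (f + g) = mean e n f + mean e n g
  | 0, f, g => rfl
  | n + 1, f, g => by
    have : ∀ b, restr (f + g) b = restr f b + restr g b := fun b => rfl
    simp only [mean, this, mean_add e n]; ring

lemma mean_smul (e c : ℝ) : ∀ (n : ℕ) (f : (Fin n → Bool) → ℝ),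
    mean e n (c • f) = c * mean e n f
  | 0, f => rfl
  | n + 1, f => by
    have : ∀ b, restr (c • f) b = c • restr f b := fun b => rfl
    simp only [mean, this, mean_smul e c n]; ring

lemma mean_nonneg {e : ℝ} (he : e ∈ Set.Icc (-1 : ℝ) 1) :
    ∀ (n : ℕ) (f : (Fin n → Bool) → ℝ), (∀ x, 0 ≤ f x) → 0 ≤ mean e n f
  | 0, f, h => h _
  | n + 1, f, h => by
    have h1 := mean_nonneg he n (restr f true) fun x => h _
    have h0 := mean_nonneg he n (restr f false) fun x => h _
    have a1 : 0 ≤ (1 + e) / 2 := by linarith [he.1]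
    have a0 : 0 ≤ (1 - e) / 2 := by linarith [he.2]
    simp only [mean]; positivity

lemma mean_mono {e : ℝ} (he : e ∈ Set.Icc (-1 : ℝ) 1) {n : ℕ} (f g : (Fin n → Bool) → ℝ)
    (h : ∀ x, f x ≤ g x) : mean e n f ≤ mean e n g := by
  have := mean_nonneg he n (g + (-1 : ℝ) • f) fun x => by simpa using h x
  rw [mean_add, mean_smul] at this; linarith

lemma mean_const (e c : ℝ) : ∀ n : ℕ, mean e n (fun _ => c) = c
  | 0 => rfl
  | n + 1 => by
    have : ∀ b, restr (fun _ : Fin (n + 1) → Bool => c) b = fun _ => c := fun b => rfl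
    simp only [mean, this, mean_const e c n]; ring

lemma mean_eq_zero {e : ℝ} (he : e ∈ Set.Ioo (-1 : ℝ) 1) :
    ∀ (n : ℕ) (f : (Fin n → Bool) → ℝ), (∀ x, 0 ≤ f x) → mean e n f = 0 → ∀ x, f x = 0
  | 0, f, _, h0, x => by rw [Subsingleton.elim x Fin.elim0]; exact h0
  | n + 1, f, h, h0, x => by
    have h1 := mean_nonneg (Set.Ioo_subset_Icc_self he) n (restr f true) fun x => h _
    have h2 := mean_nonneg (Set.Ioo_subset_Icc_self he) n (restr f false) fun x => h _
    simp only [mean] at h0
    have a1 : 0 < (1 + e) / 2 := by linarith [he.1]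
    have a0 : 0 < (1 - e) / 2 := by linarith [he.2]
    have e1 : mean e n (restr f true) = 0 := by nlinarith
    have e0 : mean e n (restr f false) = 0 := by nlinarith
    rw [← Fin.cons_self_tail x]
    cases x 0
    · exact mean_eq_zero he n (restr f false) (fun y => h _) e0 _
    · exact mean_eq_zero he n (restr f true) (fun y => h _) e1 _

lemma mean_abs_le {e : ℝ} (he : e ∈ Set.Icc (-1 : ℝ) 1) {n : ℕ} {f : (Fin n → Bool) → ℝ}
    (hf : IsBoolean f) : |mean e n f| ≤ 1 := by
  rw [abs_le]
  constructor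
  · rw [← mean_const e (-1) n]
    exact mean_mono he _ _ fun x => by rcases hf x with h | h <;> simp [h]
  · rw [← mean_const e 1 n]
    exact mean_mono he _ _ fun x => by rcases hf x with h | h <;> simp [h]

lemma mean_mem_Ioo {e : ℝ} (he : e ∈ Set.Ioo (-1 : ℝ) 1) {n : ℕ} {f : (Fin n → Bool) → ℝ}
    (hf : IsBoolean f) (hc : ∀ c : ℝ, ∃ x, f x ≠ c) : mean e n f ∈ Set.Ioo (-1 : ℝ) 1 := by
  have hb := abs_le.mp (mean_abs_le (Set.Ioo_subset_Icc_self he) hf)
  constructor
  · refine lt_of_le_of_ne hb.1 fun h => ?_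
    obtain ⟨x, hx⟩ := hc (-1)
    have := mean_eq_zero he n (f + fun _ => 1) (fun y => by rcases hf y with e | e <;> simp [e])
      (by rw [mean_add, mean_const]; linarith) x
    exact hx (by simp at this; linarith)
  · refine lt_of_le_of_ne hb.2 fun h => ?_
    obtain ⟨x, hx⟩ := hc 1
    have := mean_eq_zero he n ((fun _ => 1) + (-1 : ℝ) • f)
      (fun y => by rcases hf y with e | e <;> simp [e])
      (by rw [mean_add, mean_const, mean_smul]; linarith) x
    exact hx (by simp at this; linarith)

/-- The identity behind the variance decomposition. -/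
lemma mean_sq_mix (e t : ℝ) {n : ℕ} (u v : (Fin n → Bool) → ℝ) :
    t * mean e n (u * u) + (1 - t) * mean e n (v * v)
      = mean e n ((t • u + (1 - t) • v) * (t • u + (1 - t) • v))
        + t * (1 - t) * mean e n ((u - v) * (u - v)) := by
  have h : t • (u * u) + (1 - t) • (v * v)
      = (t • u + (1 - t) • v) * (t • u + (1 - t) • v) + (t * (1 - t)) • ((u - v) * (u - v)) := by
    ext x; simp; ring
  have := congrArg (mean e n) h
  rwa [mean_add, mean_add, mean_smul, mean_smul, mean_smul] at this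

lemma energy_mix (e : ℝ) : ∀ (n : ℕ) (t : ℝ) (u v : (Fin n → Bool) → ℝ),
    t * energy e n u + (1 - t) * energy e n v
      = energy e n (t • u + (1 - t) • v) + t * (1 - t) * energy e n (u - v)
  | 0, t, u, v => by simp [energy]
  | n + 1, t, u, v => by
    have h1 : ∀ b, restr (t • u + (1 - t) • v) b = t • restr u b + (1 - t) • restr v b :=
      fun b => rfl
    have h2 : ∀ b, restr (u - v) b = restr u b - restr v b := fun b => rfl
    have h3 : dif (t • u + (1 - t) • v) = t • dif u + (1 - t) • dif v := by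
      ext x; simp [dif, restr]; ring
    have h4 : dif (u - v) = dif u - dif v := by ext x; simp [dif, restr]; ring
    simp only [energy, h1, h2, h3, h4]
    linear_combination mean_sq_mix e t (dif u) (dif v)
      + (1 + e) / 2 * energy_mix e n t (restr u true) (restr v true)
      + (1 - e) / 2 * energy_mix e n t (restr u false) (restr v false)

lemma energy_smul (e c : ℝ) : ∀ (n : ℕ) (f : (Fin n → Bool) → ℝ),
    energy e n (c • f) = c ^ 2 * energy e n f
  | 0, f => by simp [energy]
  | n + 1, f => by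
    have h1 : ∀ b, restr (c • f) b = c • restr f b := fun b => rfl
    have h2 : dif (c • f) * dif (c • f) = (c ^ 2) • (dif f * dif f) := by
      ext x; simp [dif, restr]; ring
    simp only [energy, h1, h2, mean_smul, energy_smul e c n]; ring

lemma split_low {n d : ℕ} (e : ℝ) {f : (Fin (n + 1) → Bool) → ℝ} (hf : f ∈ low (n + 1) d) :
    avg e f ∈ low n d ∧ dif f ∈ low n (d - 1) ∧ (d = 0 → dif f = 0) := by
  classical
  induction hf using Submodule.span_induction with
  | mem φ hφ =>
    obtain ⟨S, hS, rfl⟩ := hφ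
    set T : Finset (Fin n) := univ.filter (fun i => i.succ ∈ S) with hT
    have key : ∀ b y, chi S (Fin.cons b y : Fin (n + 1) → Bool)
        = (if (0 : Fin (n + 1)) ∈ S then sgn b else 1) * chi T y := by
      intro b y
      rw [chi_eq, Fin.prod_univ_succ, chi_eq T]
      simp [hT]
    have hcard : T.card + (if (0 : Fin (n + 1)) ∈ S then 1 else 0) = S.card := by
      have := congrArg Finset.card (show T.map (Fin.succEmb n) = S.erase 0 by
        ext i; refine Fin.cases ?_ (fun j => ?_) i <;> simp [hT, Fin.succ_ne_zero])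
      rw [card_map] at this
      split
      · next h => rw [this, card_erase_add_one h]
      · next h => rw [this, erase_eq_of_notMem h]; simp
    by_cases h0 : (0 : Fin (n + 1)) ∈ S
    · simp only [h0, if_true] at key hcard
      have ha : avg e (chi S) = e • chi T := by
        ext y; simp [avg, restr, key, sgn]; ring
      have hb : dif (chi S) = chi T := by ext y; simp [dif, restr, key, sgn]; ring
      rw [ha, hb]
      exact ⟨Submodule.smul_mem _ _ (chi_mem _ (by omega)), chi_mem _ (by omega), by omega⟩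
    · simp only [h0, if_false, one_mul] at key hcard
      have ha : avg e (chi S) = chi T := by ext y; simp [avg, restr, key]; ring
      have hb : dif (chi S) = 0 := by ext y; simp [dif, restr, key]
      rw [ha, hb]
      exact ⟨chi_mem _ (by omega), Submodule.zero_mem _, fun _ => rfl⟩
  | zero =>
    have ha : avg e (0 : (Fin (n + 1) → Bool) → ℝ) = 0 := by ext y; simp [avg, restr]
    have hb : dif (0 : (Fin (n + 1) → Bool) → ℝ) = 0 := by ext y; simp [dif, restr]
    rw [ha, hb]; exact ⟨Submodule.zero_mem _, Submodule.zero_mem _, fun _ => rfl⟩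
  | add u v _ _ hu hv =>
    have ha : avg e (u + v) = avg e u + avg e v := by ext y; simp [avg, restr]; ring
    have hb : dif (u + v) = dif u + dif v := by ext y; simp [dif, restr]; ring
    rw [ha, hb]
    exact ⟨add_mem hu.1 hv.1, add_mem hu.2.1 hv.2.1, fun h => by rw [hu.2.2 h, hv.2.2 h, add_zero]⟩
  | smul c u _ hu =>
    have ha : avg e (c • u) = c • avg e u := by ext y; simp [avg, restr]; ring
    have hb : dif (c • u) = c • dif u := by ext y; simp [dif, restr]; ring
    rw [ha, hb]
    exact ⟨Submodule.smul_mem _ _ hu.1, Submodule.smul_mem _ _ hu.2.1,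
      fun h => by rw [hu.2.2 h, smul_zero]⟩

/-- Energy is at most degree times variance, at every tilt. -/
lemma energy_le {e : ℝ} (he : e ∈ Set.Icc (-1 : ℝ) 1) :
    ∀ (n d : ℕ) (f : (Fin n → Bool) → ℝ), f ∈ low n d →
      (1 - e ^ 2) * energy e n f ≤ d * (mean e n (f * f) - mean e n f ^ 2)
  | 0, d, f, _ => by simp [energy, mean, sq]
  | n + 1, d, f, hf => by
    obtain ⟨ha, hb, hb0⟩ := split_low e hf
    have IHa := energy_le he n d _ ha
    have IHb := energy_le he n (d - 1) _ hb
    set t := (1 + e) / 2 with ht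
    have ht' : (1 - e) / 2 = 1 - t := by rw [ht]; ring
    have havg : avg e f = t • restr f true + (1 - t) • restr f false := by
      rw [avg, ← ht, ht']
    have hdiff : restr f true - restr f false = (2 : ℝ) • dif f := by
      ext x; simp [dif]
    have hE := energy_mix e n t (restr f true) (restr f false)
    rw [hdiff, energy_smul, ← havg] at hE
    have hM := mean_sq_mix e t (restr f true) (restr f false)
    have h22 : (2 : ℝ) • dif f * (2 : ℝ) • dif f = (4 : ℝ) • (dif f * dif f) := by
      ext x; simp; ring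
    rw [hdiff, h22, mean_smul, ← havg] at hM
    have hrestr : ∀ b, restr (f * f) b = restr f b * restr f b := fun b => rfl
    have hmean : mean e (n + 1) f = mean e n (avg e f) := by
      simp [mean, avg, mean_add, mean_smul]
    have hsq : mean e (n + 1) (f * f)
        = mean e n (avg e f * avg e f) + (1 - e ^ 2) * mean e n (dif f * dif f) := by
      simp only [mean, hrestr, ← ht, ht']
      rw [hM, ht]; ring
    have hen : energy e (n + 1) f = mean e n (dif f * dif f)
        + (energy e n (avg e f) + (1 - e ^ 2) * energy e n (dif f)) := by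
      simp only [energy, ← ht, ht']
      rw [hE, ht]; ring
    rw [hen, hsq, hmean]
    have hs : 0 ≤ 1 - e ^ 2 := by nlinarith [he.1, he.2]
    have hw : 0 ≤ mean e n (dif f * dif f) := mean_nonneg he n _ fun x => mul_self_nonneg _
    rcases Nat.eq_zero_or_pos d with h0 | hpos
    · have hdz : dif f = 0 := hb0 h0
      have h1 : mean e n ((0 : (Fin n → Bool) → ℝ) * 0) = 0 := by
        rw [mul_zero]; exact mean_const e 0 n
      have h2 : energy e n (0 : (Fin n → Bool) → ℝ) = 0 := by
        simpa using energy_smul e 0 n 0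
      subst h0
      rw [hdz, h1, h2]
      simpa using IHa
    · have hd1 : ((d - 1 : ℕ) : ℝ) = (d : ℝ) - 1 := by
        rw [Nat.cast_sub hpos]; simp
      rw [hd1] at IHb
      have hd : (1 : ℝ) ≤ d := by exact_mod_cast hpos
      have IHb' : (1 - e ^ 2) * energy e n (dif f) ≤ ((d : ℝ) - 1) * mean e n (dif f * dif f) :=
        IHb.trans (mul_le_mul_of_nonneg_left (by nlinarith [sq_nonneg (mean e n (dif f))])
          (by linarith))
      nlinarith [mul_le_mul_of_nonneg_left IHb' hs]

lemma restr_boolean {n : ℕ} {f : (Fin (n + 1) → Bool) → ℝ} (hf : IsBoolean f) (b : Bool) :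
    IsBoolean (restr f b) := fun _ => hf _

/-- The derivative of the tilted mean is at most the energy. -/
lemma mean_hasDeriv {e : ℝ} (he : e ∈ Set.Icc (-1 : ℝ) 1) :
    ∀ (n : ℕ) (f : (Fin n → Bool) → ℝ), IsBoolean f →
      ∃ v : ℝ, HasDerivAt (fun x => mean x n f) v e ∧ |v| ≤ energy e n f
  | 0, f, _ => ⟨0, by simpa [mean] using hasDerivAt_const e (f Fin.elim0), by simp [energy]⟩
  | n + 1, f, hf => by
    obtain ⟨v1, h1, b1⟩ := mean_hasDeriv he n _ (restr_boolean hf true)
    obtain ⟨v0, h0, b0⟩ := mean_hasDeriv he n _ (restr_boolean hf false)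
    refine ⟨(1 / 2 * mean e n (restr f true) + (1 + e) / 2 * v1)
        + (-1 / 2 * mean e n (restr f false) + (1 - e) / 2 * v0), ?_, ?_⟩
    · have c1 : HasDerivAt (fun x : ℝ => (1 + x) / 2) (1 / 2) e :=
        ((hasDerivAt_id e).const_add 1).div_const 2
      have c0 : HasDerivAt (fun x : ℝ => (1 - x) / 2) (-1 / 2) e :=
        ((hasDerivAt_id e).const_sub 1).div_const 2
      have := (c1.mul h1).add (c0.mul h0)
      exact this.congr_of_eventuallyEq (Filter.Eventually.of_forall fun x => rfl)
    · have a1 : 0 ≤ (1 + e) / 2 := by linarith [he.1]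
      have a0 : 0 ≤ (1 - e) / 2 := by linarith [he.2]
      have hab : |1 / 2 * mean e n (restr f true) - 1 / 2 * mean e n (restr f false)|
          ≤ mean e n (dif f * dif f) := by
        have hd : mean e n (dif f)
            = 1 / 2 * mean e n (restr f true) - 1 / 2 * mean e n (restr f false) := by
          have : dif f = (2⁻¹ : ℝ) • restr f true + (-(2⁻¹ : ℝ)) • restr f false := by
            ext x; simp [dif]; ring
          rw [this, mean_add, mean_smul, mean_smul]; ring
        rw [← hd, abs_le]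
        constructor
        · have := mean_mono he ((-1 : ℝ) • dif f) (dif f * dif f) fun x => by
            rcases hf (Fin.cons true x) with p | p <;> rcases hf (Fin.cons false x) with q | q <;>
              simp [dif, restr, p, q] <;> norm_num
          rw [mean_smul] at this; linarith
        · exact mean_mono he _ _ fun x => by
            rcases hf (Fin.cons true x) with p | p <;> rcases hf (Fin.cons false x) with q | q <;>
              simp [dif, restr, p, q] <;> norm_num
      simp only [energy]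
      rw [abs_le] at b1 b0 hab ⊢
      constructor <;> nlinarith

/-- The differential inequality for the tilted mean. -/
lemma deriv_bound {e : ℝ} (he : e ∈ Set.Icc (-1 : ℝ) 1) {n d : ℕ} {f : (Fin n → Bool) → ℝ}
    (hf : IsBoolean f) (hd : deg f ≤ d) :
    ∃ v : ℝ, HasDerivAt (fun x => mean x n f) v e ∧
      (1 - e ^ 2) * |v| ≤ d * (1 - mean e n f ^ 2) := by
  obtain ⟨v, hv, hb⟩ := mean_hasDeriv he n f hf
  refine ⟨v, hv, (mul_le_mul_of_nonneg_left hb (by nlinarith [he.1, he.2])).trans ?_⟩
  have h1 : f * f = fun _ => (1 : ℝ) := by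
    ext x; rcases hf x with h | h <;> simp [h]
  simpa [h1, mean_const] using energy_le he n d f (mem_low f hd)

lemma mean_chi (e : ℝ) : ∀ (n : ℕ) (S : Finset (Fin n)), mean e n (chi S) = e ^ S.card
  | 0, S => by
    have : S = ∅ := Finset.eq_empty_of_isEmpty S
    simp [mean, chi, this]
  | n + 1, S => by
    classical
    set T : Finset (Fin n) := univ.filter (fun i => i.succ ∈ S) with hT
    have key : ∀ b, restr (chi S) b
        = (if (0 : Fin (n + 1)) ∈ S then sgn b else 1) • chi T := by
      intro b; ext y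
      simp only [restr, Pi.smul_apply, smul_eq_mul]
      rw [chi_eq, Fin.prod_univ_succ, chi_eq T]
      simp [hT]
    have hcard := congrArg Finset.card (show T.map (Fin.succEmb n) = S.erase 0 by
        ext i; refine Fin.cases ?_ (fun j => ?_) i <;> simp [hT, Fin.succ_ne_zero])
    rw [card_map] at hcard
    simp only [mean, key, mean_smul, mean_chi e n]
    by_cases h0 : (0 : Fin (n + 1)) ∈ S
    · rw [← card_erase_add_one h0, ← hcard]; simp [h0, sgn, pow_succ]; ring
    · rw [erase_eq_of_notMem h0] at hcard; simp [h0, hcard]; ring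

/-- The odd part of the tilted mean, as a polynomial. -/
noncomputable def oddPoly {n : ℕ} (f : (Fin n → Bool) → ℝ) : ℝ[X] :=
  ∑ S ∈ (univ : Finset (Finset (Fin n))).filter (fun S => Odd S.card),
    Polynomial.C (coef f S) * Polynomial.X ^ S.card

lemma mean_eq_sum {n : ℕ} (e : ℝ) (f : (Fin n → Bool) → ℝ) :
    mean e n f = ∑ S, coef f S * e ^ S.card := by
  classical
  have h : f = ∑ S, coef f S • chi S := by
    ext x; rw [expansion f x]; simp [Finset.sum_apply]
  conv_lhs => rw [h]
  induction (univ : Finset (Finset (Fin n))) using Finset.induction with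
  | empty =>
    rw [sum_empty, sum_empty]; exact mean_const e 0 n
  | insert a s ha ih => rw [sum_insert ha, sum_insert ha, mean_add, mean_smul, mean_chi, ih]

lemma oddPoly_eval {n : ℕ} (f : (Fin n → Bool) → ℝ) (x : ℝ) :
    (oddPoly f).eval x = (mean x n f - mean (-x) n f) / 2 := by
  rw [mean_eq_sum, mean_eq_sum, ← sum_sub_distrib, sum_div, oddPoly, eval_finsetSum, sum_filter]
  refine sum_congr rfl fun S _ => ?_
  rcases Nat.even_or_odd S.card with h | h
  · simp [h.neg_pow, Nat.not_odd_iff_even.mpr h]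
  · simp [h.neg_pow, h]

lemma oddPoly_deriv {n : ℕ} (f : (Fin n → Bool) → ℝ) :
    (derivative (oddPoly f)).eval 0 = linSum f := by
  classical
  rw [← coeff_zero_eq_eval_zero, coeff_derivative, oddPoly, finsetSum_coeff, linSum]
  simp only [coeff_C_mul_X_pow, CharP.cast_eq_zero, zero_add, mul_one]
  rw [← sum_filter, filter_filter]
  symm
  refine sum_bij' (fun i _ => {i}) (fun S hS => (card_eq_one.mp
      (by simpa using (mem_filter.mp hS).2.2.symm)).choose) ?_ ?_ ?_ ?_ ?_
  · intro i _; simp
  · intro S _; exact mem_univ _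
  · intro i hi
    exact (singleton_injective ((card_eq_one.mp (card_singleton i)).choose_spec)).symm
  · intro S hS
    exact ((card_eq_one.mp
      (by simpa using (mem_filter.mp hS).2.2.symm)).choose_spec).symm
  · intro i _; rfl

lemma oddPoly_degree {n D : ℕ} (f : (Fin n → Bool) → ℝ) (hD : deg f ≤ D + 1) (ho : Odd D) :
    (oddPoly f).natDegree ≤ D := by
  classical
  refine natDegree_sum_le_of_forall_le _ _ fun S hS => ?_
  by_cases hc : coef f S = 0
  · simp [hc]
  refine le_trans (natDegree_C_mul_X_pow_le _ _) ?_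
  have h1 : S.card ≤ D + 1 :=
    le_trans (by unfold deg; exact Finset.le_sup (f := card) (by simp [hc])) hD
  have h2 := Nat.odd_iff.mp (mem_filter.mp hS).2
  have h3 := Nat.odd_iff.mp ho
  omega

/-- The odd Lagrange function for the positive node `y j`. -/
noncomputable def oddBasis (m : ℕ) (y : ℕ → ℝ) (j : ℕ) : ℝ[X] :=
  Polynomial.C (y j)⁻¹ * Polynomial.X *
    ∏ l ∈ (range m).erase j,
      (Polynomial.C (y j ^ 2 - y l ^ 2)⁻¹ * (Polynomial.X ^ 2 - Polynomial.C (y l ^ 2)))

lemma oddBasis_deriv (m : ℕ) (y : ℕ → ℝ) (j : ℕ) :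
    (derivative (oddBasis m y j)).eval 0
      = (y j)⁻¹ * ∏ l ∈ (range m).erase j, ((y j ^ 2 - y l ^ 2)⁻¹ * -(y l ^ 2)) := by
  simp [oddBasis, derivative_mul, eval_prod]

lemma odd_interp {m : ℕ} {y : ℕ → ℝ} (hy : ∀ j < m, 0 < y j)
    (hanti : ∀ i j, i < j → j < m → y j < y i) (Q : ℝ[X]) (hQ : Q.natDegree < 2 * m)
    (hodd : ∀ x, Q.eval (-x) = -Q.eval x) :
    Q = ∑ j ∈ range m, Polynomial.C (Q.eval (y j)) * oddBasis m y j := by
  classical
  set R := ∑ j ∈ range m, Polynomial.C (Q.eval (y j)) * oddBasis m y j with hR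
  have hsq : ∀ j < m, ∀ l < m, l ≠ j → y j ^ 2 - y l ^ 2 ≠ 0 := by
    intro j hj l hl hne h
    have := (sq_eq_sq₀ (hy j hj).le (hy l hl).le).mp (by linarith)
    rcases lt_or_gt_of_ne hne with h' | h'
    · exact (hanti l j h' hj).ne this
    · exact (hanti j l h' hl).ne' this
  have hval : ∀ i < m, R.eval (y i) = Q.eval (y i) := by
    intro i hi
    rw [hR, eval_finsetSum, sum_eq_single i]
    · simp only [eval_mul, eval_C, oddBasis, eval_X, eval_prod, eval_sub, eval_pow]
      rw [prod_eq_one (fun l hl => inv_mul_cancel₀ (hsq i hi l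
        (mem_range.mp (mem_erase.mp hl).2) (mem_erase.mp hl).1)),
        inv_mul_cancel₀ (hy i hi).ne', mul_one, mul_one]
    · intro j hj hji
      simp only [eval_mul, eval_C, oddBasis, eval_X, eval_prod, eval_sub, eval_pow]
      rw [prod_eq_zero (mem_erase.mpr ⟨Ne.symm hji, mem_range.mpr hi⟩) (by simp)]
      simp
    · intro h; exact absurd (mem_range.mpr hi) h
  have hRodd : ∀ x, R.eval (-x) = -R.eval x := by
    intro x; simp [hR, oddBasis, eval_finsetSum, eval_prod]
  have hRdeg : R.natDegree < 2 * m := by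
    rcases Nat.eq_zero_or_pos m with hm | hm
    · omega
    refine lt_of_le_of_lt (natDegree_sum_le_of_forall_le (n := 2 * m - 1) _ _ fun j hj => ?_)
      (by omega)
    refine natDegree_C_mul_le _ _ |>.trans ?_
    unfold oddBasis
    refine natDegree_mul_le.trans ?_
    have h1 : (Polynomial.C (y j)⁻¹ * Polynomial.X : ℝ[X]).natDegree ≤ 1 :=
      (natDegree_C_mul_le _ _).trans natDegree_X_le
    have h2 : (∏ l ∈ (range m).erase j,
        (Polynomial.C (y j ^ 2 - y l ^ 2)⁻¹ * (Polynomial.X ^ 2 - Polynomial.C (y l ^ 2)))).natDegree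
          ≤ ((range m).erase j).card * 2 := by
      refine (natDegree_prod_le _ _).trans ?_
      refine (sum_le_card_nsmul _ _ 2 fun l _ => ?_).trans (by simp)
      exact (natDegree_C_mul_le _ _).trans (by rw [natDegree_sub_C, natDegree_X_pow])
    rw [card_erase_of_mem hj, card_range] at h2
    omega
  refine eq_of_natDegree_lt_card_of_eval_eq' Q R
    ((range m).image y ∪ (range m).image (fun j => -y j)) ?_ ?_
  · intro x hx
    simp only [mem_union, mem_image, mem_range] at hx
    rcases hx with ⟨i, hi, rfl⟩ | ⟨i, hi, rfl⟩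
    · exact (hval i hi).symm
    · rw [hodd, hRodd, hval i hi]
  · have inj : Set.InjOn y (range m) := by
      intro a ha b hb hab
      simp only [coe_range, Set.mem_Iio] at ha hb
      rcases lt_trichotomy a b with h | h | h
      · exact absurd hab (hanti a b h hb).ne'
      · exact h
      · exact absurd hab (hanti b a h ha).ne
    rw [card_union_of_disjoint, card_image_of_injOn inj,
      card_image_of_injOn (fun a ha b hb hab => inj ha hb (neg_injective hab)), card_range]
    · rw [← two_mul]; exact max_lt hQ hRdeg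
    · rw [disjoint_left]
      intro x hx hx'
      simp only [mem_image, mem_range] at hx hx'
      obtain ⟨i, hi, rfl⟩ := hx
      obtain ⟨j, hj, hj'⟩ := hx'
      linarith [hy i hi, hy j hj]

/-- The central Chebyshev node. -/
noncomputable def centre (k : ℕ) : ℝ := Real.sin (Real.pi / (2 * (2 * k + 1 : ℕ)))

/-- Bernstein's bound at zero, sharpened by the value at the central node. -/
lemma slope_le (k : ℕ) (Q : ℝ[X]) (hQ : Q.natDegree ≤ 2 * k + 1)
    (hodd : ∀ x, Q.eval (-x) = -Q.eval x)
    (hb : ∀ x ∈ Set.Icc (-1 : ℝ) 1, |Q.eval x| ≤ 1) {τ : ℝ} (hτ1 : τ ≤ 1)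
    (hτ : |Q.eval (centre k)| ≤ τ) :
    (derivative Q).eval 0 ≤ ((2 * k + 1 : ℕ) : ℝ) * (1 - 2 / Real.pi * (1 - τ)) := by
  classical
  set D := 2 * k + 1 with hD
  set y := Polynomial.Chebyshev.node D with hy
  set h : ℕ → ℝ := fun j => (derivative (oddBasis (k + 1) y j)).eval 0 with hh
  have hDpos : (0 : ℝ) < D := by exact_mod_cast (show 0 < D by omega)
  have hpos : ∀ j < k + 1, 0 < y j := by
    intro j hj
    refine Real.cos_pos_of_mem_Ioo ⟨?_, ?_⟩
    · have : 0 ≤ (j : ℝ) * Real.pi / D := by positivity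
      linarith [Real.pi_pos]
    · rw [div_lt_iff₀ hDpos]
      have : (2 * j : ℝ) < D := by exact_mod_cast (show 2 * j < D by omega)
      nlinarith [Real.pi_pos]
  have hanti : ∀ i j, i < j → j < k + 1 → y j < y i :=
    fun i j hij hj => Polynomial.Chebyshev.node_lt (by omega) hij
  have hcen : y k = centre k := by
    rw [hy, Polynomial.Chebyshev.node, centre, ← Real.cos_pi_div_two_sub]
    congr 1
    rw [hD]; push_cast
    field_simp
    ring
  have hyI : ∀ j, y j ∈ Set.Icc (-1 : ℝ) 1 := fun j => Polynomial.Chebyshev.node_mem_Icc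
  have hform : ∀ P : ℝ[X], P.natDegree ≤ D → (∀ x, P.eval (-x) = -P.eval x) →
      (derivative P).eval 0 = ∑ j ∈ range (k + 1), P.eval (y j) * h j := by
    intro P hP hPodd
    conv_lhs => rw [odd_interp hpos hanti P (by omega) hPodd]
    simp [hh, derivative_sum, eval_finsetSum, derivative_C_mul]
  have habs : ∀ j < k + 1, |h j| = (-1 : ℝ) ^ k * ((-1 : ℝ) ^ j * h j) := by
    intro j hj
    have hs : 0 ≤ (-1 : ℝ) ^ k * ((-1 : ℝ) ^ j * h j) := by
      simp only [hh, oddBasis_deriv]
      have hset : (range (k + 1)).erase j = range j ∪ Ioc j k := by grind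
      have hdisj : Disjoint (range j) (Ioc j k) := by grind [Finset.disjoint_iff_ne]
      rw [hset, prod_union hdisj]
      have p1 : 0 ≤ ∏ l ∈ range j, ((y j ^ 2 - y l ^ 2)⁻¹ * -(y l ^ 2)) := by
        refine prod_nonneg fun l hl => ?_
        have := hanti l j (mem_range.mp hl) hj
        have := hpos j hj
        exact mul_nonneg_of_nonpos_of_nonpos (inv_nonpos.mpr (by nlinarith)) (by nlinarith)
      have p2 : 0 ≤ (-1 : ℝ) ^ (k - j) *
          ∏ l ∈ Ioc j k, ((y j ^ 2 - y l ^ 2)⁻¹ * -(y l ^ 2)) := by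
        rw [show (-1 : ℝ) ^ (k - j) = ∏ _l ∈ Ioc j k, (-1 : ℝ) by simp, ← prod_mul_distrib]
        refine prod_nonneg fun l hl => ?_
        obtain ⟨hl1, hl2⟩ := mem_Ioc.mp hl
        have := hanti j l hl1 (by omega)
        have := hpos l (by omega)
        have hp : 0 ≤ (y j ^ 2 - y l ^ 2)⁻¹ := inv_nonneg.mpr (by nlinarith)
        nlinarith [mul_nonneg hp (sq_nonneg (y l))]
      have hk : (-1 : ℝ) ^ k = (-1 : ℝ) ^ (k - j) * (-1 : ℝ) ^ j := by
        rw [← pow_add]; congr 1; omega
      have hjj : (-1 : ℝ) ^ j * (-1 : ℝ) ^ j = 1 := by rw [← mul_pow]; simp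
      have := mul_nonneg (mul_nonneg (inv_nonneg.mpr (hpos j hj).le) p1) p2
      rw [hk]
      calc (0 : ℝ) ≤ _ := this
        _ = _ := by linear_combination - ((y j)⁻¹ *
              (∏ l ∈ range j, ((y j ^ 2 - y l ^ 2)⁻¹ * -(y l ^ 2))) *
              ((-1 : ℝ) ^ (k - j) * ∏ l ∈ Ioc j k, ((y j ^ 2 - y l ^ 2)⁻¹ * -(y l ^ 2)))) * hjj
    rw [← abs_of_nonneg hs, abs_mul, abs_mul]; simp
  have hT : ((D : ℕ) : ℝ) = ∑ j ∈ range (k + 1), |h j| := by
    have ho : ∀ x, (Polynomial.Chebyshev.T ℝ D).eval (-x) = -(Polynomial.Chebyshev.T ℝ D).eval x := by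
      intro x
      rw [Polynomial.Chebyshev.T_eval_neg, Int.negOnePow_odd _ (by rw [Int.odd_coe_nat]; exact odd_two_mul_add_one k)]
      simp
    have hder := hform _ (le_of_eq (by rw [Polynomial.Chebyshev.natDegree_T]; simp)) ho
    rw [Polynomial.Chebyshev.T_derivative_eq_U, eval_mul, eval_intCast] at hder
    have hU : (Polynomial.Chebyshev.U ℝ ((D : ℤ) - 1)).eval 0 = (-1 : ℝ) ^ k := by
      rw [show (D : ℤ) - 1 = 2 * (k : ℤ) by omega, Polynomial.Chebyshev.U_eval_two_mul_zero]
      simp [Int.negOnePow_def]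
    rw [hU] at hder
    rw [sum_congr rfl fun j hj => habs j (mem_range.mp hj), ← mul_sum]
    have : ∑ j ∈ range (k + 1), (-1 : ℝ) ^ j * h j = (D : ℤ) * (-1 : ℝ) ^ k := by
      rw [hder]
      refine sum_congr rfl fun j hj => ?_
      rw [hy, Polynomial.Chebyshev.eval_T_real_node (by simp at hj ⊢; omega)]
    rw [this, mul_comm, mul_assoc, ← mul_pow]
    simp
  have hbig : 2 * (D : ℝ) / Real.pi ≤ |h k| := by
    simp only [hh, oddBasis_deriv, abs_mul, Finset.abs_prod, abs_inv]
    have h1 : 1 ≤ ∏ l ∈ (range (k + 1)).erase k, |y k ^ 2 - y l ^ 2|⁻¹ * |-(y l ^ 2)| := by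
      refine one_le_prod fun l hl => ?_
      obtain ⟨hne, hl'⟩ := mem_erase.mp hl
      have hlk : l < k := by simp at hl'; omega
      have hlt := hanti l k hlk (by omega)
      have hp := hpos k (by omega)
      rw [abs_neg, abs_of_nonneg (sq_nonneg (y l)), abs_of_neg (by nlinarith),
        inv_mul_eq_div, one_le_div (by nlinarith)]
      nlinarith
    have hp := hpos k (by omega)
    have hle : y k ≤ Real.pi / (2 * D) := by
      rw [hcen, centre]; exact Real.sin_le (by positivity)
    calc 2 * (D : ℝ) / Real.pi = (Real.pi / (2 * D))⁻¹ := by rw [inv_div]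
      _ ≤ (y k)⁻¹ := by rw [inv_le_inv₀ (by positivity) hp]; exact hle
      _ ≤ |y k|⁻¹ * _ := by
        rw [abs_of_pos hp]; exact le_mul_of_one_le_right (by positivity) h1
  rw [hform Q hQ hodd]
  calc ∑ j ∈ range (k + 1), Q.eval (y j) * h j
      ≤ ∑ j ∈ range (k + 1), (if j = k then τ else 1) * |h j| := by
        refine sum_le_sum fun j _ => (le_abs_self _).trans ?_
        rw [abs_mul]
        refine mul_le_mul_of_nonneg_right ?_ (abs_nonneg _)
        split
        · next e => subst e; rw [hcen]; exact hτ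
        · exact hb _ (hyI j)
    _ = (D : ℝ) - (1 - τ) * |h k| := by
        rw [hT]
        have : ∀ j, (if j = k then τ else 1) * |h j|
            = |h j| - (if j = k then (1 - τ) * |h j| else 0) := by
          intro j; split <;> ring
        simp_rw [this, sum_sub_distrib, sum_ite_eq', mem_range]
        simp
    _ ≤ (D : ℝ) - (1 - τ) * (2 * D / Real.pi) := by
        nlinarith
    _ = _ := by ring

/-- Two values at hyperbolic distance at most `2X` differ by at most `2 tanh X`. -/
lemma spread_le {u v s : ℝ} (hu : u < 1) (hv : -1 < v) (hs : 1 ≤ s)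
    (h : (1 + u) * (1 - v) ≤ s ^ 2 * ((1 - u) * (1 + v))) :
    u - v ≤ 2 * (1 - 2 / (s + 1)) := by
  set m := ((1 - u) + (1 + v)) / 2 with hm
  have h1 : 4 * (1 - m) ≤ (s ^ 2 - 1) * ((1 - u) * (1 + v)) := by rw [hm]; nlinarith
  have h2 : (1 - u) * (1 + v) ≤ m ^ 2 := by rw [hm]; nlinarith [sq_nonneg ((1 - u) - (1 + v))]
  have h3 : 0 ≤ ((s + 1) * m - 2) * ((s - 1) * m + 2) := by
    nlinarith [mul_le_mul_of_nonneg_left h2 (show 0 ≤ s ^ 2 - 1 by nlinarith)]
  have hm0 : 0 ≤ m := by rw [hm]; linarith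
  have h4 : 2 / (s + 1) ≤ m := by
    rw [div_le_iff₀ (by linarith)]
    by_contra hc
    nlinarith [mul_nonneg (sub_nonneg.mpr hs) hm0]
  rw [hm] at h4; linarith

/-- The value of the odd part at a point, from the differential inequality. -/
lemma odd_value {n d : ℕ} {f : (Fin n → Bool) → ℝ} (hf : IsBoolean f) (hd : deg f ≤ d)
    (hc : ∀ c : ℝ, ∃ x, f x ≠ c) {a s : ℝ} (ha0 : 0 ≤ a) (ha1 : a < 1)
    (hs : Real.exp (2 * (d * a / (1 - a ^ 2))) ≤ s) :
    |(oddPoly f).eval a| ≤ 1 - 2 / (s + 1) := by
  set X := (d : ℝ) * a / (1 - a ^ 2) with hX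
  have hq : 0 < 1 - a ^ 2 := by nlinarith
  have hs1 : 1 ≤ s := le_trans (Real.one_le_exp (by positivity)) hs
  set L : ℝ → ℝ := fun x => Real.log (1 + mean x n f) - Real.log (1 - mean x n f) with hL
  have hI : ∀ x ∈ Set.Icc (-a) a, x ∈ Set.Ioo (-1 : ℝ) 1 :=
    fun x hx => ⟨by linarith [hx.1], by linarith [hx.2]⟩
  have hder : ∀ x ∈ Set.Icc (-a) a, ∃ v, HasDerivWithinAt L v (Set.Icc (-a) a) x ∧
      ‖v‖ ≤ 2 * d / (1 - a ^ 2) := by
    intro x hx
    obtain ⟨v, hv, hb⟩ := deriv_bound (Set.Ioo_subset_Icc_self (hI x hx)) hf hd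
    obtain ⟨hm1, hm2⟩ := mean_mem_Ioo (hI x hx) hf hc
    have e1 := (hv.const_add 1).log (by linarith)
    have e2 := (hv.const_sub 1).log (by linarith)
    refine ⟨_, (e1.sub e2).hasDerivWithinAt, ?_⟩
    have hp : 0 < 1 - mean x n f ^ 2 := by nlinarith
    have heq : v / (1 + mean x n f) - -v / (1 - mean x n f)
        = 2 * v / (1 - mean x n f ^ 2) := by
      rw [div_sub_div _ _ (by linarith) (by linarith), div_eq_div_iff (by nlinarith) hp.ne']
      ring
    rw [heq, Real.norm_eq_abs, abs_div, abs_of_pos hp, abs_mul, abs_two,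
      div_le_div_iff₀ hp hq]
    have hxa : x ^ 2 ≤ a ^ 2 := by nlinarith [hx.1, hx.2]
    nlinarith [abs_nonneg v]
  choose! g hg using hder
  have hmv := (convex_Icc (-a) a).norm_image_sub_le_of_norm_hasDerivWithin_le
    (fun x hx => (hg x hx).1) (fun x hx => (hg x hx).2)
    (Set.left_mem_Icc.mpr (by linarith)) (Set.right_mem_Icc.mpr (by linarith : -a ≤ a))
  rw [Real.norm_eq_abs, Real.norm_eq_abs, show a - -a = 2 * a by ring,
    abs_of_nonneg (by linarith : 0 ≤ 2 * a)] at hmv
  rw [show 2 * (d : ℝ) / (1 - a ^ 2) * (2 * a) = 4 * X by rw [hX]; ring, abs_le] at hmv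
  obtain ⟨hu1, hu2⟩ := mean_mem_Ioo (hI a ⟨by linarith, le_rfl⟩) hf hc
  obtain ⟨hv1, hv2⟩ := mean_mem_Ioo (hI (-a) ⟨le_rfl, by linarith⟩) hf hc
  set u := mean a n f with hu
  set v := mean (-a) n f with hv
  have hs2 : Real.exp (4 * X) ≤ s ^ 2 := by
    rw [show 4 * X = 2 * X + 2 * X by ring, Real.exp_add, sq]
    exact mul_le_mul hs hs (Real.exp_pos _).le (by linarith)
  have key : ∀ {p q : ℝ}, p ∈ Set.Ioo (-1 : ℝ) 1 → q ∈ Set.Ioo (-1 : ℝ) 1 →
      Real.log (1 + p) - Real.log (1 - p) - (Real.log (1 + q) - Real.log (1 - q)) ≤ 4 * X →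
      p - q ≤ 2 * (1 - 2 / (s + 1)) := by
    intro p q hp hq' h
    refine spread_le hp.2 hq'.1 hs1 ?_
    have n1 : 0 < 1 + p := by linarith [hp.1]
    have n2 : 0 < 1 - p := by linarith [hp.2]
    have n3 : 0 < 1 + q := by linarith [hq'.1]
    have n4 : 0 < 1 - q := by linarith [hq'.2]
    have hlog : Real.log ((1 + p) * (1 - q)) ≤ 4 * X + Real.log ((1 - p) * (1 + q)) := by
      rw [Real.log_mul n1.ne' n4.ne', Real.log_mul n2.ne' n3.ne']; linarith
    have := Real.exp_le_exp.mpr hlog
    rw [Real.exp_log (by positivity), Real.exp_add, Real.exp_log (by positivity)] at this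
    exact this.trans (mul_le_mul_of_nonneg_right hs2 (by positivity))
  have k1 := key ⟨hu1, hu2⟩ ⟨hv1, hv2⟩ (by simp only [hL, ← hu, ← hv] at hmv; linarith [hmv.2])
  have k2 := key ⟨hv1, hv2⟩ ⟨hu1, hu2⟩ (by simp only [hL, ← hu, ← hv] at hmv; linarith [hmv.1])
  rw [oddPoly_eval, ← hu, ← hv, abs_le]
  constructor <;> linarith

/-- The main estimate. -/
lemma linSum_le_main {n d k : ℕ} {f : (Fin n → Bool) → ℝ} (hf : IsBoolean f) (hd : deg f ≤ d)
    (hk : d ≤ 2 * k + 2) (hk1 : 1 ≤ k) {s : ℝ}
    (hs : Real.exp (2 * (d * centre k / (1 - centre k ^ 2))) ≤ s) :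
    linSum f ≤ ((2 * k + 1 : ℕ) : ℝ) * (1 - 2 / Real.pi * (2 / (s + 1))) := by
  have hpi := Real.pi_pos
  have hD : (3 : ℝ) ≤ ((2 * k + 1 : ℕ) : ℝ) := by exact_mod_cast (by omega : 3 ≤ 2 * k + 1)
  have hang : Real.pi / (2 * ((2 * k + 1 : ℕ) : ℝ)) ≤ Real.pi / 6 :=
    div_le_div_of_nonneg_left hpi.le (by norm_num) (by linarith)
  have ha0 : 0 ≤ centre k := Real.sin_nonneg_of_nonneg_of_le_pi (by positivity) (by linarith)
  have ha1 : centre k < 1 := by
    refine lt_of_le_of_lt (Real.sin_le (by positivity)) ?_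
    linarith [Real.pi_lt_d4]
  have hspos : 0 < s := lt_of_lt_of_le (Real.exp_pos _) hs
  have hnn : (0 : ℝ) ≤ ((2 * k + 1 : ℕ) : ℝ) * (1 - 2 / Real.pi * (2 / (s + 1))) := by
    refine mul_nonneg (by positivity) ?_
    have h1 : 2 / Real.pi ≤ 1 := by rw [div_le_one hpi]; linarith [Real.two_le_pi]
    have h2 : 2 / (s + 1) ≤ 1 := by
      have : (1 : ℝ) ≤ s := by
        refine le_trans (Real.one_le_exp ?_) hs
        have : 0 < 1 - centre k ^ 2 := by nlinarith
        positivity
      rw [div_le_one (by linarith)]; linarith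
    have := mul_le_one₀ h1 (by positivity) h2
    linarith
  by_cases hc : ∀ c : ℝ, ∃ x, f x ≠ c
  · have := slope_le k (oddPoly f) (oddPoly_degree f (by omega) (odd_two_mul_add_one k))
      (fun x => by rw [oddPoly_eval, oddPoly_eval, neg_neg]; ring)
      (fun x hx => by
        rw [oddPoly_eval]
        have h1 := abs_le.mp (mean_abs_le hx hf)
        have h2 := abs_le.mp (mean_abs_le (e := -x) ⟨by linarith [hx.2], by linarith [hx.1]⟩ hf)
        rw [abs_le]; constructor <;> linarith)
      (τ := 1 - 2 / (s + 1)) (by linarith [div_nonneg zero_le_two (by linarith : (0 : ℝ) ≤ s + 1)])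
      (odd_value hf hd hc ha0 ha1 hs)
    rw [oddPoly_deriv] at this
    simpa using this
  · push Not at hc
    obtain ⟨c, hc⟩ := hc
    have : linSum f = 0 := by
      refine sum_eq_zero fun i _ => ?_
      simp [coef, hc, ← mul_sum, sum_chi]
    linarith

end Vale.Agent.P047
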